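import Vale.Agent.P139.Bdl.B1

open Set MeasureTheory ProbabilityTheory

namespace Vale.Agent.P139.H836

open Vale.Agent.P139.A

/-- Circles are null sets of the standard complex Gaussian law. -/
theorem std_circle (r : ℝ) : stdComplexGaussian {z : ℂ | ‖z‖ = r} = 0 := by
  have hmeas : MeasurableSet {z : ℂ | ‖z‖ = r} :=
    (isClosed_eq continuous_norm continuous_const).measurableSet
  have hn : ∀ x : ℝ, gaussianReal 0 (1 / 2) {x} = 0 := fun x => by
    have : NullSingletonClass (gaussianReal 0 (1 / 2)) :=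
      nullSingletonClass_gaussianReal (by norm_num)
    exact measure_singleton x
  unfold stdComplexGaussian
  rw [Measure.map_apply measurable_mkC hmeas,
    Measure.measure_prod_null (measurable_mkC hmeas)]
  filter_upwards with x
  refine measure_mono_null (t := {Real.sqrt (r ^ 2 - x ^ 2)} ∪ {-Real.sqrt (r ^ 2 - x ^ 2)}) ?_
    (measure_union_null (hn _) (hn _))
  intro y hy
  have h1 : ‖(⟨x, y⟩ : ℂ)‖ = r := hy
  have h2 : x ^ 2 + y ^ 2 = r ^ 2 := by
    rw [← h1, ← Complex.normSq_eq_norm_sq, Complex.normSq_mk]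
    ring
  have h3 : Real.sqrt (r ^ 2 - x ^ 2) = |y| := by
    rw [show r ^ 2 - x ^ 2 = y ^ 2 by linarith, Real.sqrt_sq_eq_abs]
  rw [h3]
  rcases abs_choice y with h | h
  · left; rw [mem_singleton_iff, h]
  · right; rw [mem_singleton_iff, h]; ring

theorem ae_notin {Ω' : Type*} [MeasurableSpace Ω'] (P : Measure Ω') {z : Ω' → ℂ}
    (hm : Measurable z) (hg : P.map z = stdComplexGaussian) (m : ℕ) (hm1 : 1 ≤ m)
    {L : Set ℝ} (hL : L.Countable) : ∀ᵐ ω ∂P, (m : ℝ) * ‖z ω‖ ^ (2 * m) ∉ L := by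
  have hmpos : (0 : ℝ) < m := by exact_mod_cast hm1
  have h1 : ∀ l ∈ L, P {ω | (m : ℝ) * ‖z ω‖ ^ (2 * m) = l} = 0 := by
    intro l _
    by_cases hl : ∃ r : ℝ, 0 ≤ r ∧ (m : ℝ) * r ^ (2 * m) = l
    · obtain ⟨r, hr, hrl⟩ := hl
      have hsub : {ω | (m : ℝ) * ‖z ω‖ ^ (2 * m) = l} ⊆ z ⁻¹' {z : ℂ | ‖z‖ = r} := by
        intro ω hω
        have h2 : (m : ℝ) * ‖z ω‖ ^ (2 * m) = l := hω
        have h3 : ‖z ω‖ ^ (2 * m) = r ^ (2 * m) := by
          apply mul_left_cancel₀ hmpos.ne'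
          rw [h2, hrl]
        exact (pow_left_inj₀ (norm_nonneg _) hr (by omega)).1 h3
      refine measure_mono_null hsub ?_
      rw [← Measure.map_apply hm
        (isClosed_eq continuous_norm continuous_const).measurableSet, hg, std_circle]
    · have : {ω | (m : ℝ) * ‖z ω‖ ^ (2 * m) = l} = ∅ := by
        ext ω
        simp only [mem_empty_iff_false, iff_false]
        intro h
        exact hl ⟨‖z ω‖, norm_nonneg _, h⟩
      rw [this, measure_empty]
  have h2 : P (⋃ l ∈ L, {ω | (m : ℝ) * ‖z ω‖ ^ (2 * m) = l}) = 0 :=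
    (measure_biUnion_null_iff hL).2 h1
  have h3 := measure_eq_zero_iff_ae_notMem.1 h2
  filter_upwards [h3] with ω hω hin
  exact hω (mem_biUnion hin rfl)

end Vale.Agent.P139.H836
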