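import Vale.Agent.P139.Bdl.B1
import Vale.Agent.P139.H212.Ae

/-!
# P139: from the deterministic theorem to the almost sure lower bound `c 2^α` of the lifespan
-/

set_option autoImplicit false

open Set Metric Filter Topology MeasureTheory ProbabilityTheory
open scoped NNReal ENNReal ComplexConjugate

namespace Vale.Agent.P139.H836

open Vale.Agent.P139.A Vale.Agent.P139.A.WA
open Vale.Agent.P139.H212 (om Good)

variable {d k : ℕ}

/-- The three-wave divisors are bounded below. -/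
def GapC (d : ℕ) (μ : ℝ) : Prop :=
  ∃ δ : ℝ, 0 < δ ∧ ∀ a b : Lat d, a ≠ 0 → b ≠ 0 → a + b ≠ 0 →
    δ ≤ |Om μ (a + b) - Om μ a - Om μ b|

/-- Existence up to the time `c / ε²` for data `ε`-close to the constant `z`. -/
def Long2 (d k m : ℕ) (z : ℂ) : Prop :=
  ∃ c > 0, ∃ δ > 0, ∀ a : WA d k, coef a 0 = z → ‖a - z • 1‖ ≤ δ → ∀ T : ℝ, 0 ≤ T →
    T * ‖a - z • 1‖ ^ 2 ≤ c → ∃ u : ℝ → WA d k, u 0 = a ∧
      IsSolution d (2 * m + 1) k T (fun t => coef (u t))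

theorem exists_nat_sqNorm {n : Lat d} (hn : n ≠ 0) : ∃ j : ℕ, 1 ≤ j ∧ sqNorm n = j := by
  have h0 : 0 ≤ ∑ i, (n i) ^ 2 := Finset.sum_nonneg fun _ _ => sq_nonneg _
  have h1 : sqNorm n = ((∑ i, (n i) ^ 2).toNat : ℝ) := by
    have h2 : (((∑ i, (n i) ^ 2).toNat : ℤ)) = ∑ i, (n i) ^ 2 := Int.toNat_of_nonneg h0
    have h3 : (((∑ i, (n i) ^ 2).toNat : ℕ) : ℝ) = ((∑ i, (n i) ^ 2 : ℤ) : ℝ) := by
      exact_mod_cast congrArg (fun z : ℤ => (z : ℝ)) h2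
    rw [h3]
    unfold sqNorm
    push_cast
    rfl
  refine ⟨_, ?_, h1⟩
  have h4 := one_le_sqNorm hn
  rw [h1] at h4
  exact_mod_cast h4

theorem Om_eq_om {μ : ℝ} {n : Lat d} {j : ℕ} (h : sqNorm n = j) : Om μ n = om μ j := by
  unfold Om om
  rw [h]

theorem gapC_of_good {μ : ℝ} (h : Good μ) : GapC d μ := by
  obtain ⟨γ, hγ, -, H⟩ := h
  refine ⟨γ, hγ, fun a b ha hb hab => ?_⟩
  obtain ⟨i, hi, ei⟩ := exists_nat_sqNorm ha
  obtain ⟨j, hj, ej⟩ := exists_nat_sqNorm hb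
  obtain ⟨l, hl, el⟩ := exists_nat_sqNorm hab
  have := H i j l hi hj hl
  rw [Om_eq_om ei, Om_eq_om ej, Om_eq_om el]
  rwa [show om μ l - om μ i - om μ j = -(om μ i + om μ j - om μ l) by ring, abs_neg]

/-- Deterministic consequence: exponential lower bound of the lifespan. -/
theorem lifespan_lower2 {m : ℕ} (k : ℕ) {γ : Lat d → ℂ} (hL : Long2 d k m (γ 0))
    (hs : Summable fun n => ‖γ n‖ * (W (2 * d) n)⁻¹) :
    ∃ c : ℝ, 0 < c ∧ ∃ α₁ : ℝ, ∀ α ≥ α₁, ∃ u : ℝ → Lat d → ℂ,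
      u 0 = (fun n => γ n * ((Real.sqrt (1 + sqNorm n) ^ (-α) : ℝ) : ℂ)) ∧
      IsSolution d (2 * m + 1) k (c * (2 : ℝ) ^ α) u := by
  obtain ⟨c, hc, δ, hδ, H⟩ := hL
  set A : ℝ := (2 : ℝ) ^ (k + 2 * d) * ∑' n, ‖γ n‖ * (W (2 * d) n)⁻¹ with hA
  have hterm : ∀ n, 0 ≤ ‖γ n‖ * (W (2 * d) n)⁻¹ := fun n =>
    mul_nonneg (norm_nonneg _) (inv_pos.2 (W_pos n)).le
  have hA0 : 0 ≤ A := mul_nonneg (by positivity) (tsum_nonneg hterm)
  have hlim : Tendsto (fun α : ℝ => A * (2 : ℝ) ^ (-α / 2)) atTop (𝓝 0) := by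
    have h1 : Tendsto (fun α : ℝ => -α / 2) atTop atBot := by
      apply Tendsto.atBot_div_const (by norm_num)
      exact tendsto_neg_atTop_atBot
    have h2 := (tendsto_rpow_atBot_of_base_gt_one 2 (by norm_num)).comp h1
    simpa using h2.const_mul A
  obtain ⟨α₂, hα₂⟩ := (hlim.eventually (gt_mem_nhds hδ)).exists_forall_of_atTop
  refine ⟨c / (A + 1) ^ 2, by positivity, max α₂ ((k + 2 * d : ℕ) : ℝ), fun α hα => ?_⟩
  have hα2 : α₂ ≤ α := (le_max_left _ _).trans hα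
  have hαk : ((k + 2 * d : ℕ) : ℝ) ≤ α := (le_max_right _ _).trans hα
  set a₀ : Lat d → ℂ := fun n => γ n * ((Real.sqrt (1 + sqNorm n) ^ (-α) : ℝ) : ℂ) with ha₀
  have hnorm : ∀ n, ‖a₀ n‖ = ‖γ n‖ * Real.sqrt (1 + sqNorm n) ^ (-α) := fun n => by
    simp only [ha₀, norm_mul, Complex.norm_real]
    rw [Real.norm_of_nonneg (Real.rpow_nonneg (Real.sqrt_nonneg _) _)]
  have hbound : ∀ n, n ≠ 0 → W k n * ‖a₀ n‖ ≤
      (2 : ℝ) ^ (k + 2 * d) * (2 : ℝ) ^ (-α / 2) * (‖γ n‖ * (W (2 * d) n)⁻¹) := by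
    intro n hn
    rw [hnorm]
    calc W k n * (‖γ n‖ * Real.sqrt (1 + sqNorm n) ^ (-α))
        = ‖γ n‖ * (W k n * Real.sqrt (1 + sqNorm n) ^ (-α)) := by ring
      _ ≤ ‖γ n‖ * ((2 : ℝ) ^ (k + 2 * d) * (2 : ℝ) ^ (-α / 2) * (W (2 * d) n)⁻¹) := by
          exact mul_le_mul_of_nonneg_left (weight_datum_le hαk hn) (norm_nonneg _)
      _ = _ := by ring
  have hz0 : a₀ 0 = γ 0 := by simp [ha₀, sqNorm_zero]
  -- the perturbation
  have hsum1 : Summable fun n => W k n * ‖(if n = 0 then 0 else a₀ n : ℂ)‖ := by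
    refine Summable.of_nonneg_of_le (fun n => mul_nonneg (W_pos n).le (norm_nonneg _)) (fun n => ?_)
      (hs.mul_left ((2 : ℝ) ^ (k + 2 * d) * (2 : ℝ) ^ (-α / 2)))
    by_cases hn : n = 0
    · simp only [hn, if_true, norm_zero, mul_zero]
      exact mul_nonneg (by positivity) (hterm 0)
    · simp only [hn, if_false]
      exact hbound n hn
  let b : WA d k := mk _ hsum1
  have hb : ∀ n, coef b n = if n = 0 then 0 else a₀ n := fun n => coef_mk _ hsum1 n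
  have hbn : ‖b‖ ≤ A * (2 : ℝ) ^ (-α / 2) := by
    rw [norm_eq]
    have h3 : ∀ n, W k n * ‖coef b n‖ ≤
        (2 : ℝ) ^ (k + 2 * d) * (2 : ℝ) ^ (-α / 2) * (‖γ n‖ * (W (2 * d) n)⁻¹) := by
      intro n
      rw [hb]
      by_cases hn : n = 0
      · simp only [hn, if_true, norm_zero, mul_zero]
        exact mul_nonneg (by positivity) (hterm 0)
      · simp only [hn, if_false]
        exact hbound n hn
    refine (b.summable.tsum_le_tsum h3 (hs.mul_left _)).trans (le_of_eq ?_)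
    rw [tsum_mul_left, hA]
    ring
  let a : WA d k := γ 0 • 1 + b
  have hab : a - γ 0 • 1 = b := by simp [a]
  have hcoef : coef a = a₀ := by
    funext n
    simp only [a, coef_add, coef_smul, coef_one, hb]
    by_cases hn : n = 0
    · subst hn; simp [hz0]
    · simp [hn]
  have ha0 : coef a 0 = γ 0 := by rw [hcoef, hz0]
  have hα₂' := hα₂ α hα2
  have hpow : (2 : ℝ) ^ α * ((2 : ℝ) ^ (-α / 2)) ^ 2 = 1 := by
    rw [pow_two, ← Real.rpow_add (by norm_num), ← Real.rpow_add (by norm_num)]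
    have : α + (-α / 2 + -α / 2) = 0 := by ring
    rw [this, Real.rpow_zero]
  obtain ⟨u, hu0, hu⟩ := H a ha0 (by rw [hab]; exact hbn.trans hα₂'.le)
    (c / (A + 1) ^ 2 * (2 : ℝ) ^ α) (by positivity) (by
      rw [hab]
      calc c / (A + 1) ^ 2 * (2 : ℝ) ^ α * ‖b‖ ^ 2
          ≤ c / (A + 1) ^ 2 * (2 : ℝ) ^ α * (A * (2 : ℝ) ^ (-α / 2)) ^ 2 := by gcongr
        _ = c * (A ^ 2 / (A + 1) ^ 2) * ((2 : ℝ) ^ α * ((2 : ℝ) ^ (-α / 2)) ^ 2) := by ring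
        _ = c * (A ^ 2 / (A + 1) ^ 2) := by rw [hpow, mul_one]
        _ ≤ c * 1 := by
            gcongr
            rw [div_le_one (by positivity)]
            gcongr
            linarith
        _ = c := mul_one c)
  refine ⟨fun t => coef (u t), ?_, hu⟩
  simp only [hu0, hcoef]

/-- Almost surely the `H^k` lifespan of the Gaussian random datum is at least `c 2^α` for all
large `α`. -/
theorem main2 {Ω : Type*} [MeasurableSpace Ω] (P : Measure Ω) {p : ℕ} (hp : Odd p) (hp3 : 3 ≤ p)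
    (k : ℕ) (g : Lat d → Ω → ℂ) (hm : ∀ n, Measurable (g n))
    (hg : ∀ n, P.map (g n) = stdComplexGaussian)
    (hL : ∀ m : ℕ, 1 ≤ m → ∀ z : ℂ, z ≠ 0 → GapC d (m * ‖z‖ ^ (2 * m)) → Long2 d k m z) :
    ∀ᵐ ω ∂P, ∃ c > 0, ∃ α₁ : ℝ, ∀ α ≥ α₁,
      ENNReal.ofReal (c * (2 : ℝ) ^ α) ≤ lifespan d p k (datum g α ω) := by
  obtain ⟨m, rfl⟩ := hp
  have hm1 : 1 ≤ m := by omega
  filter_upwards [Vale.Agent.P139.H212.ae_good (hm 0) (hg 0) hm1, ae_summable hm hg] with ω h0 hs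
  obtain ⟨c, hc, α₁, H⟩ := lifespan_lower2 k (γ := fun n => g n ω)
    (hL m hm1 (g 0 ω) h0.1 (gapC_of_good h0.2)) hs
  refine ⟨c, hc, α₁, fun α hα => ?_⟩
  obtain ⟨u, hu0, hu⟩ := H α hα
  unfold lifespan
  have hT : 0 ≤ c * (2 : ℝ) ^ α := by positivity
  refine le_iSup₂_of_le (NNReal.mk _ hT) ⟨u, hu, hu0⟩ ?_
  rw [ENNReal.ofReal, Real.toNNReal_of_nonneg hT]

end Vale.Agent.P139.H836
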