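import Vale.Agent.P139.Bdl.B1
import Mathlib.Algebra.Polynomial.Roots

open Set

namespace Vale.Agent.P139.H836

open Vale.Agent.P139.A

/-- The Bogoliubov frequency as a function of `|n|² = N`. -/
noncomputable def fr (μ : ℝ) (N : ℕ) : ℝ := Real.sqrt ((N : ℝ) * ((N : ℝ) + 2 * μ))

lemma fr_sq {μ : ℝ} (hμ : 0 ≤ μ) (N : ℕ) : fr μ N ^ 2 = (N : ℝ) * ((N : ℝ) + 2 * μ) :=
  Real.sq_sqrt (by positivity)

lemma fr_nonneg (μ : ℝ) (N : ℕ) : 0 ≤ fr μ N := Real.sqrt_nonneg _

lemma le_fr {μ : ℝ} (hμ : 0 ≤ μ) (N : ℕ) : (N : ℝ) ≤ fr μ N := by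
  apply Real.le_sqrt_of_sq_le
  have : (0 : ℝ) ≤ N := Nat.cast_nonneg N
  nlinarith

lemma fr_le {μ : ℝ} (hμ : 0 ≤ μ) (N : ℕ) : fr μ N ≤ N + μ := by
  apply Real.sqrt_le_iff.2
  have : (0 : ℝ) ≤ N := Nat.cast_nonneg N
  constructor
  · positivity
  · nlinarith [sq_nonneg μ]

/-- `f(N) → N + μ`. -/
lemma fr_ge {μ : ℝ} (hμ : 0 ≤ μ) {N : ℕ} (hN : 1 ≤ N) {η : ℝ} (hη : 0 ≤ η)
    (h : μ ^ 2 ≤ η * N) : (N : ℝ) + μ - η ≤ fr μ N := by
  have h1 : (1 : ℝ) ≤ N := by exact_mod_cast hN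
  have h2 := fr_sq hμ N
  have h3 := le_fr hμ N
  by_contra hcon
  push Not at hcon
  have h4 : fr μ N ^ 2 + μ ^ 2 = (N + μ) ^ 2 := by rw [h2]; ring
  have h5 : μ ^ 2 = (N + μ - fr μ N) * (N + μ + fr μ N) := by
    have : (N + μ - fr μ N) * (N + μ + fr μ N) = (N + μ) ^ 2 - fr μ N ^ 2 := by ring
    rw [this, ← h4]; ring
  have h6 : η < N + μ - fr μ N := by linarith
  nlinarith

lemma exists_int_gap {x : ℝ} (hx : ∀ k : ℤ, x ≠ k) : ∃ δ > 0, ∀ k : ℤ, δ ≤ |x - k| :=
  ⟨|x - round x|, abs_pos.2 (sub_ne_zero.2 (hx _)), fun k => round_le x k⟩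

lemma exists_min {ι : Type*} (s : Finset ι) (P : ι → ℝ → Prop)
    (hP : ∀ i ∈ s, ∃ δ > 0, P i δ) (hmono : ∀ i ∈ s, ∀ δ δ' : ℝ, 0 < δ' → δ' ≤ δ → P i δ → P i δ') :
    ∃ δ > 0, ∀ i ∈ s, P i δ := by
  classical
  induction s using Finset.induction_on with
  | empty => exact ⟨1, one_pos, fun i hi => absurd hi (by simp)⟩
  | insert a s ha ih =>
    obtain ⟨δ1, h1, h2⟩ := ih (fun i hi => hP i (Finset.mem_insert_of_mem hi))
      (fun i hi => hmono i (Finset.mem_insert_of_mem hi))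
    obtain ⟨δ2, h3, h4⟩ := hP a (Finset.mem_insert_self a s)
    refine ⟨min δ1 δ2, lt_min h1 h3, fun i hi => ?_⟩
    rcases Finset.mem_insert.1 hi with rfl | hi'
    · exact hmono _ hi δ2 _ (lt_min h1 h3) (min_le_right _ _) h4
    · exact hmono _ hi δ1 _ (lt_min h1 h3) (min_le_left _ _) (h2 i hi')

/-- The exceptional set. -/
def exc : Set ℝ :=
  (⋃ k : ℤ, {(k : ℝ)}) ∪ (⋃ A : ℕ, ⋃ k : ℤ, {μ : ℝ | 0 < μ ∧ 1 ≤ A ∧ fr μ A = k}) ∪
    (⋃ A : ℕ, ⋃ B : ℕ, ⋃ N : ℕ,
      {μ : ℝ | 0 < μ ∧ 1 ≤ A ∧ 1 ≤ B ∧ 1 ≤ N ∧ fr μ N - fr μ A - fr μ B = 0})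

open Polynomial in
lemma triple_countable (A B N : ℕ) :
    {μ : ℝ | 0 < μ ∧ 1 ≤ A ∧ 1 ≤ B ∧ 1 ≤ N ∧ fr μ N - fr μ A - fr μ B = 0}.Countable := by
  by_cases hA : 1 ≤ A
  swap
  · refine Set.Countable.mono (fun μ hμ => ?_) Set.countable_empty
    exact absurd hμ.2.1 hA
  by_cases hB : 1 ≤ B
  swap
  · refine Set.Countable.mono (fun μ hμ => ?_) Set.countable_empty
    exact absurd hμ.2.2.1 hB
  by_cases hN : 1 ≤ N
  swap
  · refine Set.Countable.mono (fun μ hμ => ?_) Set.countable_empty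
    exact absurd hμ.2.2.2.1 hN
  have hA' : (1 : ℝ) ≤ A := by exact_mod_cast hA
  have hB' : (1 : ℝ) ≤ B := by exact_mod_cast hB
  have hN' : (1 : ℝ) ≤ N := by exact_mod_cast hN
  set a : ℝ := (A : ℝ) with ha
  set b : ℝ := (B : ℝ) with hb
  set n : ℝ := (N : ℝ) with hn
  let c2 : ℝ := 4 * (n - a - b) ^ 2 - 16 * a * b
  let c1 : ℝ := 4 * (n ^ 2 - a ^ 2 - b ^ 2) * (n - a - b) - 8 * a * b * (a + b)
  let c0 : ℝ := (n ^ 2 - a ^ 2 - b ^ 2) ^ 2 - 4 * a ^ 2 * b ^ 2
  let q : ℝ[X] := C c2 * X ^ 2 + C c1 * X + C c0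
  have hq : q ≠ 0 := by
    intro hq0
    have e2 : q.coeff 2 = c2 := by simp [q]
    have e0 : q.coeff 0 = c0 := by simp [q]
    have e2' : c2 = 0 := by rw [← e2, hq0, coeff_zero]
    have e0' : c0 = 0 := by rw [← e0, hq0, coeff_zero]
    have h1 : (n ^ 2 - a ^ 2 - b ^ 2 - 2 * a * b) * (n ^ 2 - a ^ 2 - b ^ 2 + 2 * a * b) = 0 := by
      have : (n ^ 2 - a ^ 2 - b ^ 2 - 2 * a * b) * (n ^ 2 - a ^ 2 - b ^ 2 + 2 * a * b) = c0 := by
        simp only [c0]; ring
      rw [this, e0']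
    have h2 : (n - a - b) ^ 2 = 4 * a * b := by
      have : c2 = 4 * ((n - a - b) ^ 2 - 4 * a * b) := by simp only [c2]; ring
      rw [this] at e2'
      linarith
    have hab : 0 < a * b := by positivity
    rcases mul_eq_zero.1 h1 with h | h
    · have h3 : (n - (a + b)) * (n + (a + b)) = 0 := by linarith [h]
      rcases mul_eq_zero.1 h3 with h4 | h4
      · have : n - a - b = 0 := by linarith
        rw [this] at h2
        nlinarith
      · nlinarith
    · have h3 : n ^ 2 = (a - b) ^ 2 := by linarith [h]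
      have h5 : (n - (a - b)) * (n + (a - b)) = 0 := by nlinarith
      rcases mul_eq_zero.1 h5 with h4 | h4
      · have h6 : n = a - b := by linarith
        rw [h6] at h2
        have h7 : b * (b - a) = 0 := by nlinarith
        rcases mul_eq_zero.1 h7 with h8 | h8
        · linarith
        · linarith
      · have h6 : n = b - a := by linarith
        rw [h6] at h2
        have h7 : a * (a - b) = 0 := by nlinarith
        rcases mul_eq_zero.1 h7 with h8 | h8
        · linarith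
        · linarith
  refine Set.Countable.mono (fun μ hμ => ?_) (q.roots.toFinset.finite_toSet.countable)
  obtain ⟨hμ0, _, _, _, h⟩ := hμ
  rw [Finset.mem_coe, Multiset.mem_toFinset, mem_roots hq, IsRoot.def]
  have s1 := fr_sq hμ0.le A
  have s2 := fr_sq hμ0.le B
  have s3 := fr_sq hμ0.le N
  have h1 : fr μ N = fr μ A + fr μ B := by linarith
  have h2 : n * (n + 2 * μ) - a * (a + 2 * μ) - b * (b + 2 * μ) = 2 * fr μ A * fr μ B := by
    rw [← s1, ← s2, ← s3, h1]; ring
  have h3 : (n * (n + 2 * μ) - a * (a + 2 * μ) - b * (b + 2 * μ)) ^ 2 =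
      4 * (a * (a + 2 * μ)) * (b * (b + 2 * μ)) := by
    rw [h2, ← s1, ← s2]; ring
  simp only [q, eval_add, eval_mul, eval_C, eval_pow, eval_X, c2, c1, c0]
  linear_combination h3

lemma exc_countable : exc.Countable := by
  refine (Set.Countable.union ?_ ?_).union ?_
  · exact countable_iUnion fun k => countable_singleton _
  · refine countable_iUnion fun A => countable_iUnion fun k => ?_
    refine Set.Countable.mono (fun μ hμ => ?_)
      (countable_singleton (((k : ℝ) ^ 2 / A - A) / 2))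
    obtain ⟨h0, h1, h2⟩ := hμ
    have hA : (1 : ℝ) ≤ A := by exact_mod_cast h1
    have h3 := fr_sq h0.le A
    rw [h2] at h3
    rw [mem_singleton_iff]
    field_simp
    linarith
  · exact countable_iUnion fun A => countable_iUnion fun B => countable_iUnion fun N =>
      triple_countable A B N

lemma triple_gap {μ : ℝ} (hμ : 0 < μ) (hL : μ ∉ exc) :
    ∃ δ > 0, ∀ A B N : ℕ, 1 ≤ A → 1 ≤ B → 1 ≤ N → δ ≤ |fr μ N - fr μ A - fr μ B| := by
  simp only [exc, mem_union, mem_iUnion, mem_singleton_iff, not_or, not_exists] at hL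
  obtain ⟨⟨hint, hone⟩, htri⟩ := hL
  obtain ⟨δ0, hδ0, h0⟩ := exists_int_gap hint
  obtain ⟨K, hK⟩ := exists_nat_ge (max (1 : ℝ) (μ ^ 2 / (δ0 / 6)))
  have hK1 : 1 ≤ K := by exact_mod_cast (le_max_left _ _).trans hK
  have hKη : μ ^ 2 ≤ (δ0 / 6) * K := by
    have := (le_max_right _ _).trans hK
    rw [div_le_iff₀ (by positivity)] at this
    linarith
  have hfar0 : ∀ n : ℕ, K ≤ n → (n : ℝ) + μ - δ0 / 6 ≤ fr μ n := fun n hn => by
    refine fr_ge hμ.le (hK1.trans hn) (by positivity) (hKη.trans ?_)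
    have : (K : ℝ) ≤ n := by exact_mod_cast hn
    gcongr
  obtain ⟨δ1, hδ1, h1⟩ := exists_min (Finset.Icc 1 K) (fun A δ => ∀ k : ℤ, δ ≤ |fr μ A - k|)
    (fun A hA => exists_int_gap fun k hk =>
      hone A k ⟨hμ, (Finset.mem_Icc.1 hA).1, hk⟩)
    (fun A _ δ δ' _ hle h k => hle.trans (h k))
  obtain ⟨K', hK'⟩ := exists_nat_ge (max (K : ℝ) (μ ^ 2 / (δ1 / 4)))
  have hKK' : K ≤ K' := by exact_mod_cast (le_max_left _ _).trans hK'
  have hK'η : μ ^ 2 ≤ (δ1 / 4) * K' := by
    have := (le_max_right _ _).trans hK'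
    rw [div_le_iff₀ (by positivity)] at this
    linarith
  have hfar1 : ∀ n : ℕ, K' ≤ n → (n : ℝ) + μ - δ1 / 4 ≤ fr μ n := fun n hn => by
    refine fr_ge hμ.le ((hK1.trans hKK').trans hn) (by positivity) (hK'η.trans ?_)
    have : (K' : ℝ) ≤ n := by exact_mod_cast hn
    gcongr
  obtain ⟨M, hM⟩ := exists_nat_ge ((K' : ℝ) + K' + 2 * μ + 2)
  obtain ⟨δ2, hδ2, h2⟩ := exists_min ((Finset.Icc 1 M ×ˢ Finset.Icc 1 M) ×ˢ Finset.Icc 1 M)
    (fun t δ => δ ≤ |fr μ t.2 - fr μ t.1.1 - fr μ t.1.2|)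
    (fun t ht => by
      obtain ⟨⟨A, B⟩, N⟩ := t
      simp only [Finset.mem_product, Finset.mem_Icc] at ht
      refine ⟨_, abs_pos.2 ?_, le_rfl⟩
      intro h
      exact htri A B N ⟨hμ, ht.1.1.1, ht.1.2.1, ht.2.1, h⟩)
    (fun t _ δ δ' _ hle h => hle.trans h)
  refine ⟨min (min (δ0 / 2) (δ1 / 2)) (min δ2 1), by positivity, ?_⟩
  intro A B N hA hB hN
  have uA := fr_le hμ.le A
  have uB := fr_le hμ.le B
  have uN := fr_le hμ.le N
  have lA := le_fr hμ.le A
  have lB := le_fr hμ.le B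
  have lN := le_fr hμ.le N
  have m0 : min (min (δ0 / 2) (δ1 / 2)) (min δ2 1) ≤ δ0 / 2 := (min_le_left _ _).trans (min_le_left _ _)
  have m1 : min (min (δ0 / 2) (δ1 / 2)) (min δ2 1) ≤ δ1 / 2 := (min_le_left _ _).trans (min_le_right _ _)
  have m2 : min (min (δ0 / 2) (δ1 / 2)) (min δ2 1) ≤ δ2 := (min_le_right _ _).trans (min_le_left _ _)
  have m3 : min (min (δ0 / 2) (δ1 / 2)) (min δ2 1) ≤ 1 := (min_le_right _ _).trans (min_le_right _ _)
  by_cases hbox : A ≤ M ∧ B ≤ M ∧ N ≤ M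
  · exact m2.trans (h2 ((A, B), N) (by
      simp only [Finset.mem_product, Finset.mem_Icc]
      exact ⟨⟨⟨hA, hbox.1⟩, ⟨hB, hbox.2.1⟩⟩, ⟨hN, hbox.2.2⟩⟩))
  have cA : (0 : ℝ) ≤ A := Nat.cast_nonneg A
  have cB : (0 : ℝ) ≤ B := Nat.cast_nonneg B
  have cN : (0 : ℝ) ≤ N := Nat.cast_nonneg N
  -- two of the three variables are below K' : the third one is large and the sum is large
  have big : ∀ n : ℕ, ¬ n ≤ M → (K' : ℝ) + K' + 2 * μ + 2 ≤ n := fun n hn => by
    have : (M : ℝ) ≤ n := by exact_mod_cast (not_le.1 hn).le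
    linarith
  have hKr : (K : ℝ) ≤ K' := by exact_mod_cast hKK'
  have small : ∀ n : ℕ, ¬ K' ≤ n → (n : ℝ) ≤ K' := fun n hn => by
    exact_mod_cast (not_le.1 hn).le
  have smallK : ∀ n : ℕ, ¬ K ≤ n → (n : ℝ) ≤ K := fun n hn => by
    exact_mod_cast (not_le.1 hn).le
  by_cases hNK : K ≤ N
  swap
  · -- N small
    refine m3.trans ?_
    have hN1 := smallK N hNK
    rw [le_abs]
    right
    have hor : ¬ A ≤ M ∨ ¬ B ≤ M := by
      by_contra hcon
      push Not at hcon
      refine hbox ⟨hcon.1, hcon.2, ?_⟩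
      have : (N : ℝ) ≤ M := by linarith
      exact_mod_cast this
    rcases hor with h | h
    · have := big _ h; linarith
    · have := big _ h; linarith
  have lNK := hfar0 N hNK
  by_cases hAK : K ≤ A
  · by_cases hBK : K ≤ B
    · -- all large
      have lAK := hfar0 A hAK
      have lBK := hfar0 B hBK
      refine m0.trans ?_
      have hk := h0 ((N : ℤ) - A - B)
      push_cast at hk
      rw [le_abs] at hk ⊢
      rcases hk with hk | hk
      · right; linarith
      · left; linarith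
    · -- B small
      have hBr := smallK B hBK
      have hk1 := h1 B (Finset.mem_Icc.2 ⟨hB, (not_le.1 hBK).le⟩)
      by_cases hA2 : K' ≤ A
      · by_cases hN2 : K' ≤ N
        · have l1 := hfar1 A hA2
          have l2 := hfar1 N hN2
          refine m1.trans ?_
          have hk := hk1 ((N : ℤ) - A)
          push_cast at hk
          rw [le_abs] at hk ⊢
          rcases hk with hk | hk
          · right; linarith
          · left; linarith
        · refine m3.trans ?_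
          have hN1 := small N hN2
          rw [le_abs]
          right
          have : ¬ A ≤ M := by
            intro hAM
            refine hbox ⟨hAM, ?_, ?_⟩
            · have : (B : ℝ) ≤ M := by linarith
              exact_mod_cast this
            · have : (N : ℝ) ≤ M := by linarith
              exact_mod_cast this
          have := big _ this; linarith
      · refine m3.trans ?_
        have hA1 := small A hA2
        rw [le_abs]
        left
        have : ¬ N ≤ M := by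
          intro hNM
          refine hbox ⟨?_, ?_, hNM⟩
          · have : (A : ℝ) ≤ M := by linarith
            exact_mod_cast this
          · have : (B : ℝ) ≤ M := by linarith
            exact_mod_cast this
        have := big _ this; linarith
  · -- A small
    have hAr := smallK A hAK
    have hk1 := h1 A (Finset.mem_Icc.2 ⟨hA, (not_le.1 hAK).le⟩)
    by_cases hB2 : K' ≤ B
    · by_cases hN2 : K' ≤ N
      · have l1 := hfar1 B hB2
        have l2 := hfar1 N hN2
        refine m1.trans ?_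
        have hk := hk1 ((N : ℤ) - B)
        push_cast at hk
        rw [le_abs] at hk ⊢
        rcases hk with hk | hk
        · right; linarith
        · left; linarith
      · refine m3.trans ?_
        have hN1 := small N hN2
        rw [le_abs]
        right
        have : ¬ B ≤ M := by
          intro hBM
          refine hbox ⟨?_, hBM, ?_⟩
          · have : (A : ℝ) ≤ M := by linarith
            exact_mod_cast this
          · have : (N : ℝ) ≤ M := by linarith
            exact_mod_cast this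
        have := big _ this; linarith
    · refine m3.trans ?_
      have hB1 := small B hB2
      rw [le_abs]
      left
      have : ¬ N ≤ M := by
        intro hNM
        refine hbox ⟨?_, ?_, hNM⟩
        · have : (A : ℝ) ≤ M := by linarith
          exact_mod_cast this
        · have : (B : ℝ) ≤ M := by linarith
          exact_mod_cast this
      have := big _ this; linarith

lemma sqNorm_nat {d : ℕ} (n : Lat d) : ∃ N : ℕ, sqNorm n = N := by
  refine ⟨∑ j, (n j).natAbs ^ 2, ?_⟩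
  unfold sqNorm
  push_cast
  refine Finset.sum_congr rfl fun j _ => ?_
  rw [Nat.cast_natAbs]
  push_cast
  rw [sq_abs]

theorem gap (d : ℕ) : ∃ L : Set ℝ, L.Countable ∧ ∀ μ > 0, μ ∉ L → ∃ dl > 0,
    ∀ a b : Lat d, a ≠ 0 → b ≠ 0 → a + b ≠ 0 → dl ≤ |Om μ (a + b) - Om μ a - Om μ b| := by
  refine ⟨exc, exc_countable, fun μ hμ hL => ?_⟩
  obtain ⟨δ, hδ, h⟩ := triple_gap hμ hL
  refine ⟨δ, hδ, fun a b ha hb hab => ?_⟩
  obtain ⟨A, hA⟩ := sqNorm_nat a
  obtain ⟨B, hB⟩ := sqNorm_nat b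
  obtain ⟨N, hN⟩ := sqNorm_nat (a + b)
  have h1 := one_le_sqNorm ha
  have h2 := one_le_sqNorm hb
  have h3 := one_le_sqNorm hab
  rw [hA] at h1
  rw [hB] at h2
  rw [hN] at h3
  have := h A B N (by exact_mod_cast h1) (by exact_mod_cast h2) (by exact_mod_cast h3)
  unfold Om
  rw [hA, hB, hN]
  exact this

end Vale.Agent.P139.H836
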