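import Vale.Agent.P139.H836.Abs

/-! Long-time existence near a nonzero constant, second order. -/

open Set Metric Filter Topology MeasureTheory
open scoped NNReal ComplexConjugate

namespace Vale.Agent.P139.H836

open Vale.Agent.P139.A Vale.Agent.P139.A.WA

variable {d k : ℕ}

lemma mass_le (a : WA d k) : mass a ≤ ‖a‖ ^ 2 := by
  unfold mass
  calc (coef (a * conjL a) 0).re ≤ ‖coef (a * conjL a) 0‖ := Complex.re_le_norm _
    _ ≤ ‖a * conjL a‖ := norm_coef_le' _ _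
    _ ≤ ‖a‖ * ‖conjL a‖ := norm_mul_le _ _
    _ = ‖a‖ ^ 2 := by rw [norm_conjL, sq]

lemma mass_nonneg (a : WA d k) : 0 ≤ mass a := by
  unfold mass
  rw [coef_mul]
  have h1 : ∀ n : Lat d, coef a n * coef (conjL a) (0 - n) = ((‖coef a n‖ ^ 2 : ℝ) : ℂ) := by
    intro n
    rw [coef_conjL, zero_sub, neg_neg, Complex.mul_conj, Complex.normSq_eq_norm_sq]
  simp_rw [h1]
  rw [← Complex.ofReal_tsum, Complex.ofReal_re]
  exact tsum_nonneg fun n => by positivity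

lemma S_zero {μ : ℝ} (hμ : 0 ≤ μ) (a : WA d k) : S k hμ 0 a = a := by
  ext n
  rw [coef_S]
  simp [al, be]

/-- The statement of the bound of the primitive. -/
def PrimBound (d k m : ℕ) (c : ℝ) {μ : ℝ} (hμ : 0 ≤ μ) : Prop :=
  ∃ K, 0 ≤ K ∧ ∀ (t : ℝ) (x y : WA d k),
    ‖∫ s in (0 : ℝ)..t, Psi (S k hμ) (Qd m c) s x y‖ ≤ K * ‖x‖ * ‖y‖

/-- The statement of the cubic bound. -/
def FeCubic (d k m : ℕ) (c : ℝ) : Prop :=
  ∃ C, 0 ≤ C ∧ ∃ δ, 0 < δ ∧ ∀ (e : ℝ) (w : WA d k), 0 ≤ e → e ≤ δ → ‖w‖ ≤ δ →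
    ‖fe m c e w - Qd m c w w‖ ≤ C * (‖w‖ ^ 3 + e * ‖w‖)

/-- The statement of the Lipschitz bound. -/
def FeLip (d k m : ℕ) (c : ℝ) : Prop :=
  ∃ r0, 0 < r0 ∧ ∃ δ, 0 < δ ∧ ∀ e, 0 ≤ e → e ≤ δ → ∃ L : ℝ≥0,
    LipschitzOnWith L (fe m c e : WA d k → WA d k) (closedBall 0 r0)

/-- The statement of the reconstruction. -/
def Recon (d k m : ℕ) (c : ℝ) {μ : ℝ} (hμ : 0 ≤ μ) : Prop :=
  ∀ {T : ℝ}, 0 ≤ T → ∀ {y : ℝ → WA d k}, coef (y 0) 0 = 0 →
    (∀ t ∈ Icc 0 T, HasDerivWithinAt y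
      (S k hμ (-t) (fe m c (mass (y 0)) (S k hμ t (y t)))) (Icc 0 T) t) →
    (∀ t ∈ Icc 0 T, ‖S k hμ t (y t)‖ ≤ c / 2) →
    ∃ v : ℝ → WA d k, v 0 = cst c + y 0 ∧ ContinuousOn v (Icc 0 T) ∧
      (∀ t ∈ Icc 0 T, coef (v t) 0 ≠ 0) ∧
      ∀ t ∈ Icc 0 T, ∀ n, HasDerivWithinAt (fun t => coef (v t) n)
        (-Complex.I * (sqNorm n * coef (v t) n) + coef (Nl m (v t)) n) (Icc 0 T) t

/-- Existence up to times `c ‖a - z‖⁻²` near a nonzero constant `z`. -/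
theorem long2_of {m : ℕ} {z : ℂ} (hz : z ≠ 0) (hμ : 0 ≤ (m : ℝ) * ‖z‖ ^ (2 * m))
    (hB : PrimBound d k m ‖z‖ hμ) (hC : FeCubic d k m ‖z‖) (hL : FeLip d k m ‖z‖)
    (hR : Recon d k m ‖z‖ hμ) :
    ∃ c > 0, ∃ δ > 0, ∀ a : WA d k, coef a 0 = z → ‖a - z • (1 : WA d k)‖ ≤ δ →
      ∀ T : ℝ, 0 ≤ T → T * ‖a - z • (1 : WA d k)‖ ^ 2 ≤ c → ∃ u : ℝ → WA d k, u 0 = a ∧
        IsSolution d (2 * m + 1) k T (fun t => coef (u t)) := by
  set r : ℝ := ‖z‖ with hr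
  have hr0 : 0 < r := norm_pos_iff.2 hz
  set μ : ℝ := (m : ℝ) * r ^ (2 * m) with hμdef
  obtain ⟨K, hK0, hK⟩ := hB
  obtain ⟨C, hC0, δ1, hδ1, hC⟩ := hC
  obtain ⟨r0, hr00, δ2, hδ2, hL⟩ := hL
  set M : ℝ := 2 * (2 + μ) with hM
  have hM1 : 1 ≤ M := by linarith
  have hM0 : 0 < M := by linarith
  obtain ⟨c, hc, δ, hδ, H⟩ := long_time2 (S k hμ) hM1 (norm_S_le hμ) (continuous_S hμ)
    (Qd m r : WA d k →L[ℝ] WA d k →L[ℝ] WA d k) hK0 hK (C := C * (8 * M ^ 3 + 2 * M)) (r0 := r0)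
    (by positivity) hr00
  set η : ℝ := min δ (min 1 (min δ1 (min δ2 (min (δ1 / (2 * M)) (r / (4 * M)))))) with hη
  have hη0 : 0 < η := by positivity
  have hη1 : η ≤ δ := min_le_left _ _
  have hη2 : η ≤ 1 := (min_le_right _ _).trans (min_le_left _ _)
  have hη3 : η ≤ δ1 := (min_le_right _ _).trans ((min_le_right _ _).trans (min_le_left _ _))
  have hη4 : η ≤ δ2 := (min_le_right _ _).trans ((min_le_right _ _).trans
    ((min_le_right _ _).trans (min_le_left _ _)))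
  have hη5 : η ≤ δ1 / (2 * M) := (min_le_right _ _).trans ((min_le_right _ _).trans
    ((min_le_right _ _).trans ((min_le_right _ _).trans (min_le_left _ _))))
  have hη6 : η ≤ r / (4 * M) := (min_le_right _ _).trans ((min_le_right _ _).trans
    ((min_le_right _ _).trans ((min_le_right _ _).trans (min_le_right _ _))))
  rw [le_div_iff₀ (by positivity)] at hη5 hη6
  refine ⟨c, hc, η, hη0, fun a ha haη T hT hTc => ?_⟩
  -- normalise the phase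
  set ζ : ℂ := z / r with hζ
  have hrC : (r : ℂ) ≠ 0 := by exact_mod_cast hr0.ne'
  have hζn : ‖ζ‖ = 1 := by
    rw [hζ, norm_div, Complex.norm_real, Real.norm_of_nonneg hr0.le, ← hr, div_self hr0.ne']
  have hζ0 : ζ ≠ 0 := by
    intro h; rw [h] at hζn; simp at hζn
  have hζr : ζ * r = z := by rw [hζ]; field_simp
  set x₀ : WA d k := ζ⁻¹ • (a - z • 1) with hx₀
  have hx₀n : ‖x₀‖ = ‖a - z • (1 : WA d k)‖ := by
    rw [hx₀, norm_smul, norm_inv, hζn, inv_one, one_mul]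
  have hx₀0 : coef x₀ 0 = 0 := by
    rw [hx₀, coef_smul, coef_sub, coef_smul, coef_one, if_pos rfl, ha, mul_one, sub_self, mul_zero]
  -- choice of `ε`
  obtain ⟨ε, hε0, hε1, hε2, hε3⟩ : ∃ ε : ℝ, 0 < ε ∧ ‖x₀‖ ≤ ε ∧ ε ≤ η ∧ T * ε ^ 2 ≤ c := by
    rcases (norm_nonneg x₀).eq_or_lt with h0 | h0
    · refine ⟨min η (min 1 (c / (T + 1))), by positivity, by rw [← h0]; positivity,
        min_le_left _ _, ?_⟩
      have h1 : min η (min 1 (c / (T + 1))) ≤ 1 := (min_le_right _ _).trans (min_le_left _ _)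
      have h2 : min η (min 1 (c / (T + 1))) ≤ c / (T + 1) :=
        (min_le_right _ _).trans (min_le_right _ _)
      have h3 : 0 ≤ min η (min 1 (c / (T + 1))) := by positivity
      rw [le_div_iff₀ (by positivity)] at h2
      have h4 : (min η (min 1 (c / (T + 1)))) ^ 2 ≤ min η (min 1 (c / (T + 1))) := by
        rw [sq]
        exact mul_le_of_le_one_right h3 h1
      nlinarith
    · exact ⟨‖x₀‖, h0, le_rfl, by rw [hx₀n]; exact haη, by rw [hx₀n]; exact hTc⟩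
  have he0 : 0 ≤ mass x₀ := mass_nonneg x₀
  have heε : mass x₀ ≤ ε ^ 2 := (mass_le x₀).trans (pow_le_pow_left₀ (norm_nonneg _) hε1 2)
  have hεη1 : ε ≤ 1 := hε2.trans hη2
  have hεsq : ε ^ 2 ≤ ε := by
    rw [sq]
    exact mul_le_of_le_one_right hε0.le hεη1
  have heη : mass x₀ ≤ η := heε.trans (hεsq.trans hε2)
  obtain ⟨y, hy0, hy⟩ := H ε hε0 (hε2.trans hη1) (fe m r (mass x₀)) (hL _ he0 (heη.trans hη4))
    (fun x hx => by
      have hxδ : ‖x‖ ≤ δ1 := by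
        refine hx.trans ?_
        calc 2 * M * ε ≤ 2 * M * η := by gcongr
          _ = η * (2 * M) := by ring
          _ ≤ δ1 := hη5
      refine (hC _ x he0 (heη.trans hη3) hxδ).trans ?_
      calc C * (‖x‖ ^ 3 + mass x₀ * ‖x‖) ≤ C * ((2 * M * ε) ^ 3 + ε ^ 2 * (2 * M * ε)) := by
            gcongr
        _ = C * (8 * M ^ 3 + 2 * M) * ε ^ 3 := by ring) x₀ hε1 T hT hε3
  have hyb : ∀ t ∈ Icc 0 T, ‖S k hμ t (y t)‖ ≤ r / 2 := by
    intro t ht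
    calc ‖S k hμ t (y t)‖ ≤ ‖S k hμ t‖ * ‖y t‖ := (S k hμ t).le_opNorm _
      _ ≤ M * (2 * ε) := by
          gcongr
          · exact norm_S_le hμ t
          · exact (hy t ht).2
      _ ≤ M * (2 * η) := by gcongr
      _ = η * (4 * M) / 2 := by ring
      _ ≤ r / 2 := by gcongr
  obtain ⟨v, hv0, hvc, hvn, hvd⟩ := hR hT (y := y) (by rw [hy0]; exact hx₀0)
    (fun t ht => by rw [hy0]; exact (hy t ht).1) hyb
  obtain ⟨u, hu0, hu, -⟩ := gauge hT hvc hvd hvn ζ hζn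
  refine ⟨u, ?_, hu⟩
  rw [hu0, hv0, hy0, hx₀, smul_add, smul_inv_smul₀ hζ0]
  ext n
  simp only [coef_add, coef_sub, coef_smul, coef_cst, coef_one]
  split_ifs
  · rw [hζr]; ring
  · ring

end Vale.Agent.P139.H836
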