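import Vale.Agent.P139.H836.Sys

/-! The nonlinearity of the closed system: quadratic expansion and Lipschitz bound. -/

open Set Metric Filter Topology MeasureTheory Asymptotics
open scoped NNReal ComplexConjugate

namespace Vale.Agent.P139.H836

open Vale.Agent.P139.A Vale.Agent.P139.A.WA

variable {d k : ℕ}

namespace Nlin

/-- The quadratic form of the expansion of `F m (1 + x)`. -/
noncomputable def q (m : ℕ) (x : WA d k) : WA d k :=
  ((m * (m + 1) / 2 : ℝ)) • (x * x) +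
      ((m * (m + 1) / 2 : ℝ)) • (x * conjL x + conjL x * x) +
      ((m * (m - 1) / 2 : ℝ)) • (conjL x * conjL x)

lemma q_smul (m : ℕ) (r : ℝ) (x : WA d k) : q m (r • x) = (r ^ 2) • q m x := by
  unfold q
  simp only [map_smul, smul_mul_assoc, mul_smul_comm, smul_smul, ← smul_add]
  rw [← sub_eq_zero]
  module

lemma Qf_eq (m : ℕ) (c : ℝ) (x : WA d k) :
    Qf m c x x = -((c ^ (2 * m - 1) : ℝ) • (Complex.I • Pz (q m (Pz x)))) := rfl

lemma q_bigO (m : ℕ) {α : Type*} {l : Filter α} {f : α → WA d k} {g : α → ℝ}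
    (hf : f =O[l] g) : (fun x => q m (f x)) =O[l] fun x => g x ^ 2 := by
  have hc : (fun x => conjL (f x)) =O[l] g := by
    refine IsBigO.trans (IsBigO.of_bound 1 (Eventually.of_forall fun x => ?_)) hf
    rw [norm_conjL, one_mul]
  have e : ∀ x, g x ^ 2 = g x * g x := fun x => sq _
  simp only [e]
  unfold q
  exact (((hf.mul hf).const_smul_left _).add (((hf.mul hc).add (hc.mul hf)).const_smul_left _)).add
    ((hc.mul hc).const_smul_left _)

lemma pow_jet (n : ℕ) : (fun x : WA d k => (1 + x) ^ n -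
    (1 + (n : ℝ) • x + ((n * (n - 1) / 2 : ℝ)) • (x * x))) =O[𝓝 0] fun x => ‖x‖ ^ 3 := by
  have hx : (fun x : WA d k => x) =O[𝓝 0] fun x => ‖x‖ := (isBigO_refl _ _).norm_right
  have h1 : (fun x : WA d k => 1 + x) =O[𝓝 0] fun _ => (1 : ℝ) := by
    have : Tendsto (fun x : WA d k => 1 + x) (𝓝 0) (𝓝 (1 + 0)) := by
      exact tendsto_const_nhds.add tendsto_id
    exact this.isBigO_one ℝ
  induction n with
  | zero => simpa using isBigO_zero _ _
  | succ n ih =>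
    have h2 : (fun x : WA d k => (1 + x) * ((1 + x) ^ n -
        (1 + (n : ℝ) • x + ((n * (n - 1) / 2 : ℝ)) • (x * x)))) =O[𝓝 0] fun x => ‖x‖ ^ 3 := by
      simpa using h1.mul ih
    have h3 : (fun x : WA d k => ((n * (n - 1) / 2 : ℝ)) • (x * x * x)) =O[𝓝 0]
        fun x => ‖x‖ ^ 3 := by
      have e : ∀ x : WA d k, ‖x‖ ^ 3 = ‖x‖ * ‖x‖ * ‖x‖ := fun x => by ring
      simp only [e]
      exact ((hx.mul hx).mul hx).const_smul_left _
    refine (h2.add h3).congr_left fun x => ?_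
    rw [pow_succ']
    generalize (1 + x) ^ n = p
    simp only [mul_sub, mul_add, add_mul, one_mul, mul_one, mul_smul_comm, mul_assoc]
    push_cast
    module

lemma bigO_mul_one {α : Type*} {l : Filter α} {f h : α → WA d k} {g : α → ℝ}
    (hf : f =O[l] g) (hh : h =O[l] fun _ => (1 : ℝ)) : (fun x => f x * h x) =O[l] g := by
  simpa using hf.mul hh

lemma conjL_one : conjL (1 : WA d k) = 1 := by
  ext n
  rw [coef_conjL, coef_one, coef_one]
  by_cases h : n = 0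
  · simp [h]
  · simp [h]

lemma tendsto_conjL : Tendsto (fun x : WA d k => conjL x) (𝓝 0) (𝓝 0) := by
  have := (conjL (d := d) (k := k)).continuous.tendsto 0
  rwa [map_zero] at this

lemma F_jet (m : ℕ) : (fun x : WA d k => F m (1 + x) -
    (1 + ((m + 1 : ℝ) • x + (m : ℝ) • conjL x) + q m x)) =O[𝓝 0] fun x => ‖x‖ ^ 3 := by
  have hx : (fun x : WA d k => x) =O[𝓝 0] fun x => ‖x‖ := (isBigO_refl _ _).norm_right
  have hy : (fun x : WA d k => conjL x) =O[𝓝 0] fun x => ‖x‖ := by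
    refine IsBigO.of_bound 1 (Eventually.of_forall fun x => ?_)
    rw [norm_conjL, one_mul, norm_norm]
  have hx1 : (fun x : WA d k => x) =O[𝓝 0] fun _ => (1 : ℝ) :=
    (tendsto_id (x := 𝓝 (0 : WA d k))).isBigO_one ℝ
  have hy1 : (fun x : WA d k => conjL x) =O[𝓝 0] fun _ => (1 : ℝ) :=
    tendsto_conjL.isBigO_one ℝ
  have hc1 : (fun _ : WA d k => (1 : WA d k)) =O[𝓝 0] fun _ => (1 : ℝ) := by
    exact (tendsto_const_nhds (x := (1 : WA d k))).isBigO_one ℝ
  have hA := pow_jet (d := d) (k := k) (m + 1)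
  have hB : (fun x : WA d k => (1 + conjL x) ^ m -
      (1 + (m : ℝ) • conjL x + ((m * (m - 1) / 2 : ℝ)) • (conjL x * conjL x))) =O[𝓝 0]
      fun x => ‖x‖ ^ 3 := by
    have := (pow_jet (d := d) (k := k) m).comp_tendsto tendsto_conjL
    simpa only [Function.comp_def, norm_conjL] using this
  have hB1 : (fun x : WA d k => (1 + conjL x) ^ m) =O[𝓝 0] fun _ => (1 : ℝ) := by
    have : Tendsto (fun x : WA d k => (1 + conjL x) ^ m) (𝓝 0) (𝓝 ((1 + 0) ^ m)) :=
      (tendsto_const_nhds.add tendsto_conjL).pow m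
    exact this.isBigO_one ℝ
  have hJA : (fun x : WA d k => 1 + ((m + 1 : ℕ) : ℝ) • x +
      ((((m + 1 : ℕ) : ℝ) * (((m + 1 : ℕ) : ℝ) - 1) / 2 : ℝ)) • (x * x)) =O[𝓝 0]
      fun _ => (1 : ℝ) :=
    (hc1.add (hx1.const_smul_left _)).add ((bigO_mul_one hx1 hx1).const_smul_left _)
  have e : ∀ x : WA d k, ‖x‖ ^ 3 = ‖x‖ * ‖x‖ * ‖x‖ := fun x => by ring
  have t1 : (fun x : WA d k => conjL x * conjL x * x) =O[𝓝 0] fun x => ‖x‖ ^ 3 := by
    simp only [e]
    exact (hy.mul hy).mul hx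
  have t2 : (fun x : WA d k => conjL x * x * x) =O[𝓝 0] fun x => ‖x‖ ^ 3 := by
    simp only [e]
    exact (hy.mul hx).mul hx
  have t3 : (fun x : WA d k => conjL x * conjL x * x * x) =O[𝓝 0] fun x => ‖x‖ ^ 3 :=
    bigO_mul_one t1 hx1
  have s1 := bigO_mul_one hA hB1
  have s2 := bigO_mul_one hB hJA
  refine ((((s1.add s2).add (t1.const_smul_left ((m + 1 : ℝ) * (m * (m - 1) / 2)))).add
    (t2.const_smul_left ((m : ℝ) * ((m + 1) * m / 2)))).add
    (t3.const_smul_left (((m + 1 : ℝ) * m / 2) * (m * (m - 1) / 2)))).congr_left fun x => ?_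
  unfold F q
  simp only [Pi.smul_apply]
  rw [map_add, conjL_one]
  generalize (1 + x) ^ (m + 1) = a
  generalize conjL x = y
  generalize (1 + y) ^ m = b
  have c1 : y * x = x * y := mul_comm _ _
  simp only [mul_sub, sub_mul, mul_add, add_mul, one_mul, mul_one, mul_smul_comm, smul_mul_assoc,
    mul_assoc, smul_add, smul_sub, smul_smul]
  have c2 : y * (x * x) = x * (x * y) := by ring
  have c4 : y * (x * y) = x * (y * y) := by ring
  have c7 : y * (x * (x * y)) = x * (x * (y * y)) := by ring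
  have c8 : x * (x * b) = b * (x * x) := by ring
  have c9 : b * x = x * b := by ring
  simp only [c1, c2, c4, c7, c8, c9]
  push_cast
  module

lemma F_smul_real (m : ℕ) (b : ℝ) (a : WA d k) :
    F m (b • a) = (b ^ (2 * m + 1)) • F m a := by
  unfold F
  rw [map_smul, smul_pow, smul_pow, smul_mul_smul_comm, ← pow_add]
  congr 2
  ring

lemma g_smul_real (m : ℕ) {b : ℝ} (hb : b ≠ 0) (a : WA d k) :
    g m (b • a) = b ^ (2 * m) * g m a := by
  unfold g
  rw [F_smul_real, coef_real_smul, coef_real_smul]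
  have hb' : (b : ℂ) ≠ 0 := by exact_mod_cast hb
  have : ((b ^ (2 * m + 1) : ℝ) : ℂ) * coef (F m a) 0 / ((b : ℂ) * coef a 0) =
      ((b ^ (2 * m) : ℝ) : ℂ) * (coef (F m a) 0 / coef a 0) := by
    push_cast
    rw [pow_succ, mul_assoc, mul_left_comm, mul_div_mul_left _ _ hb', mul_div_assoc]
  rw [this, Complex.re_ofReal_mul]

lemma Nl_smul_real (m : ℕ) {b : ℝ} (hb : b ≠ 0) (a : WA d k) :
    Nl m (b • a) = (b ^ (2 * m + 1)) • Nl m a := by
  unfold Nl
  rw [F_smul_real, g_smul_real m hb, smul_add, smul_neg, smul_comm Complex.I (b ^ (2 * m + 1)),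
    smul_comm Complex.I b, smul_smul, smul_smul]
  congr 2
  ring

lemma Pz_I (a : WA d k) : Pz (Complex.I • a) = Complex.I • Pz a := by
  ext n
  rw [coef_Pz, coef_smul, coef_smul, coef_Pz]
  split_ifs <;> simp

lemma Pz_one : Pz (1 : WA d k) = 0 := by
  ext n
  rw [coef_Pz, coef_one, coef_zero]
  split_ifs <;> rfl

lemma Pz_conjL (a : WA d k) : Pz (conjL (Pz a)) = conjL (Pz a) := by
  ext n
  rw [coef_Pz, coef_conjL, coef_Pz]
  by_cases h : n = 0
  · simp [h]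
  · simp [h]

lemma tendsto_Pz : Tendsto (fun x : WA d k => Pz x) (𝓝 0) (𝓝 0) := by
  have := (Pz (d := d) (k := k)).continuous.tendsto 0
  rwa [map_zero] at this

lemma Pz_bigO {α : Type*} {l : Filter α} {f : α → WA d k} {g : α → ℝ}
    (hf : f =O[l] g) : (fun x => Pz (f x)) =O[l] g :=
  IsBigO.trans (IsBigO.of_bound 1 (Eventually.of_forall fun x => by
    rw [one_mul]
    exact norm_Pz_le _)) hf

lemma I_bigO {α : Type*} {l : Filter α} {f : α → WA d k} {g : α → ℝ}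
    (hf : f =O[l] g) : (fun x => Complex.I • (f x)) =O[l] g :=
  IsBigO.trans (IsBigO.of_bound 1 (Eventually.of_forall fun x => by
    rw [one_mul, norm_smul, Complex.norm_I, one_mul])) hf

lemma F_jet' (m : ℕ) : (fun w : WA d k => F m (1 + Pz w) -
    (1 + ((m + 1 : ℝ) • Pz w + (m : ℝ) • conjL (Pz w)) + q m (Pz w))) =O[𝓝 0]
      fun w => ‖w‖ ^ 3 := by
  have h := (F_jet (d := d) (k := k) m).comp_tendsto tendsto_Pz
  refine h.trans (IsBigO.of_bound 1 (Eventually.of_forall fun w => ?_))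
  simp only [Function.comp_def, norm_pow, norm_norm, one_mul]
  gcongr
  exact norm_Pz_le w

lemma g_jet (m : ℕ) : (fun w : WA d k => g m (1 + Pz w) - 1) =O[𝓝 0] fun w => ‖w‖ ^ 2 := by
  have hw : (fun w : WA d k => w) =O[𝓝 0] fun w => ‖w‖ := (isBigO_refl _ _).norm_right
  have hw1 : (fun w : WA d k => ‖w‖) =O[𝓝 0] fun _ => (1 : ℝ) := by
    have : Tendsto (fun w : WA d k => ‖w‖) (𝓝 0) (𝓝 ‖(0 : WA d k)‖) := tendsto_norm
    exact this.isBigO_one ℝ
  have h1 : (fun w : WA d k => F m (1 + Pz w) -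
    (1 + ((m + 1 : ℝ) • Pz w + (m : ℝ) • conjL (Pz w)) + q m (Pz w))) =O[𝓝 0]
      fun w => ‖w‖ ^ 2 := by
    refine (F_jet' m).trans ?_
    have : ∀ w : WA d k, ‖w‖ ^ 3 = ‖w‖ ^ 2 * ‖w‖ := fun w => by ring
    simp only [this]
    simpa using (isBigO_refl (fun w : WA d k => ‖w‖ ^ 2) (𝓝 0)).mul hw1
  have h2 := h1.add (q_bigO m (Pz_bigO hw))
  refine IsBigO.trans (IsBigO.of_bound 1 (Eventually.of_forall fun w => ?_)) h2
  rw [one_mul]
  refine le_trans ?_ (norm_coef_le' _ 0)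
  have e : coef (F m (1 + Pz w) - (1 + ((m + 1 : ℝ) • Pz w + (m : ℝ) • conjL (Pz w)) +
      q m (Pz w)) + q m (Pz w)) 0 = coef (F m (1 + Pz w)) 0 - 1 := by
    rw [coef_add, coef_sub, coef_add, coef_add, coef_add, coef_real_smul, coef_real_smul,
      coef_conjL, neg_zero, coef_Pz, coef_one]
    simp only [if_true, map_zero, mul_zero, add_zero]
    ring
  rw [e]
  unfold g
  rw [coef_add, coef_one, coef_Pz]
  simp only [if_true, add_zero, div_one]
  rw [← Complex.one_re, ← Complex.sub_re, Real.norm_eq_abs]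
  exact Complex.abs_re_le_norm _

/-- Expansion of the nonlinearity around the constant one. -/
lemma h_jet (m : ℕ) : (fun w : WA d k => Pz (Nl m (1 + Pz w)) +
    ((m : ℝ) • (Complex.I • (Pz w + conjL (Pz w))) + Complex.I • Pz (q m (Pz w)))) =O[𝓝 0]
      fun w => ‖w‖ ^ 3 := by
  have hw : (fun w : WA d k => w) =O[𝓝 0] fun w => ‖w‖ := (isBigO_refl _ _).norm_right
  have h1 := I_bigO (Pz_bigO (F_jet' (d := d) (k := k) m))
  have h2 : (fun w : WA d k => (g m (1 + Pz w) - 1) • (Complex.I • Pz w)) =O[𝓝 0]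
      fun w => ‖w‖ ^ 3 := by
    have := (g_jet (d := d) (k := k) m).smul (I_bigO (Pz_bigO hw))
    refine this.congr_right fun w => ?_
    rw [smul_eq_mul]
    ring
  refine (h2.sub h1).congr_left fun w => ?_
  unfold Nl
  simp only [map_sub, map_add, map_neg, map_smul, Pz_I, Pz_one, Pz_conjL, Pz_Pz]
  simp only [smul_sub, smul_add, zero_add, smul_comm Complex.I (_ : ℝ)]
  module

lemma Lin_eq (μ : ℝ) (w : WA d k) : Lin μ w = -(μ • (Complex.I • (Pz w + conjL (Pz w)))) := by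
  ext n
  rw [coef_Lin, coef_neg, coef_real_smul, coef_smul, coef_add, coef_conjL, coef_Pz, coef_Pz]
  by_cases h : n = 0
  · simp [h]
  · simp only [h, if_false, neg_eq_zero]
    ring

lemma fe_eq {m : ℕ} (hm : 1 ≤ m) {c e : ℝ} {w : WA d k} (hb : bz c e w ≠ 0) :
    fe m c e w - Qd m c w w =
      (bz c e w ^ (2 * m + 1)) • (Pz (Nl m (1 + Pz ((bz c e w)⁻¹ • w))) +
        ((m : ℝ) • (Complex.I • (Pz ((bz c e w)⁻¹ • w) + conjL (Pz ((bz c e w)⁻¹ • w)))) +
          Complex.I • Pz (q m (Pz ((bz c e w)⁻¹ • w))))) -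
      ((bz c e w ^ (2 * m) - c ^ (2 * m)) • ((m : ℝ) • (Complex.I • (Pz w + conjL (Pz w)))) +
      (bz c e w ^ (2 * m - 1) - c ^ (2 * m - 1)) • (Complex.I • Pz (q m (Pz w)))) := by
  rw [Qd_apply, Qf_eq]
  unfold fe
  have h1 : cst (bz c e w) + Pz w = (bz c e w) • (1 + Pz ((bz c e w)⁻¹ • w)) := by
    rw [map_smul, smul_add, smul_smul, mul_inv_cancel₀ hb, one_smul]
    rfl
  rw [h1, Nl_smul_real m hb, Lin_eq, map_smul Pz]
  generalize Pz (Nl m (1 + Pz ((bz c e w)⁻¹ • w))) = p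
  simp only [map_smul, q_smul]
  generalize bz c e w = b at hb ⊢
  obtain ⟨l, rfl⟩ : ∃ l, m = l + 1 := ⟨m - 1, by omega⟩
  have e1 : 2 * (l + 1) - 1 = 2 * l + 1 := by omega
  rw [e1]
  have hb2 : b ^ (2 * (l + 1) + 1) * b⁻¹ = b ^ (2 * (l + 1)) := by
    rw [pow_succ, mul_assoc, mul_inv_cancel₀ hb, mul_one]
  have hb3 : b ^ (2 * (l + 1) + 1) * b⁻¹ ^ 2 = b ^ (2 * l + 1) := by
    field_simp
    ring
  simp only [smul_comm Complex.I (_ : ℝ), smul_add, smul_smul]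
  simp only [mul_left_comm _ ((((l + 1 : ℕ)) : ℝ)) _, hb2, hb3]
  module

lemma abs_mass_le (a : WA d k) : |mass (Pz a)| ≤ ‖a‖ ^ 2 := by
  unfold mass
  refine (Complex.abs_re_le_norm _).trans ((norm_coef_le' _ 0).trans ((norm_mul_le _ _).trans ?_))
  rw [norm_conjL, ← sq]
  gcongr
  exact norm_Pz_le a

lemma contDiff_mass : ContDiff ℝ 2 (fun w : WA d k => mass (Pz w)) := by
  have h : ContDiff ℝ 2 (fun w : WA d k =>
      Complex.reCLM (coefR 0 (Pz w * conjL (Pz w)))) :=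
    Complex.reCLM.contDiff.comp ((coefR 0).contDiff.comp
      ((Pz.contDiff).mul (conjL.contDiff.comp Pz.contDiff)))
  exact h

lemma contDiff_s (c : ℝ) :
    ContDiff ℝ 2 (fun p : ℝ × WA d k => c ^ 2 + p.1 - mass (Pz p.2)) :=
  (contDiff_const.add contDiff_fst).sub (contDiff_mass.comp contDiff_snd)

lemma mass_zero : mass (Pz (0 : WA d k)) = 0 := by
  unfold mass
  rw [map_zero, zero_mul, coef_zero, Complex.zero_re]

lemma contDiffAt_bz {c : ℝ} (hc : 0 < c) :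
    ContDiffAt ℝ 2 (fun p : ℝ × WA d k => bz c p.1 p.2) 0 := by
  have h := (contDiff_s (d := d) (k := k) c).contDiffAt (x := 0)
  refine h.sqrt ?_
  simp only [Prod.fst_zero, Prod.snd_zero, mass_zero, add_zero, sub_zero]
  positivity

lemma bz_zero {c : ℝ} (hc : 0 < c) : bz c 0 (0 : WA d k) = c := by
  unfold bz
  rw [mass_zero, add_zero, sub_zero, Real.sqrt_sq hc.le]

lemma tendsto_bz {c : ℝ} (hc : 0 < c) :
    Tendsto (fun p : ℝ × WA d k => bz c p.1 p.2) (𝓝 0) (𝓝 c) := by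
  have := (contDiffAt_bz (d := d) (k := k) hc).continuousAt.tendsto
  rwa [Prod.fst_zero, Prod.snd_zero, bz_zero hc] at this

lemma pow_bigO {c : ℝ} (hc : 0 < c) (n : ℕ) :
    (fun p : ℝ × WA d k => bz c p.1 p.2 ^ n - c ^ n) =O[𝓝 0] fun p => |p.1| + ‖p.2‖ ^ 2 := by
  have h1 : DifferentiableAt ℝ (fun s : ℝ => Real.sqrt s ^ n) (c ^ 2) :=
    ((differentiableAt_id).sqrt (pow_pos hc 2).ne').pow n
  have h2 : Tendsto (fun p : ℝ × WA d k => c ^ 2 + p.1 - mass (Pz p.2)) (𝓝 0) (𝓝 (c ^ 2)) := by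
    have := (contDiff_s (d := d) (k := k) c).continuous.tendsto 0
    simpa only [Prod.fst_zero, Prod.snd_zero, mass_zero, add_zero, sub_zero] using this
  have h3 := h1.isBigO_sub.comp_tendsto h2
  simp only [Function.comp_def, Real.sqrt_sq hc.le] at h3
  refine h3.trans (IsBigO.of_bound 1 (Eventually.of_forall fun p => ?_))
  rw [one_mul, Real.norm_eq_abs, Real.norm_eq_abs]
  have e : c ^ 2 + p.1 - mass (Pz p.2) - c ^ 2 = p.1 - mass (Pz p.2) := by ring
  rw [e, abs_of_nonneg (add_nonneg (abs_nonneg p.1) (sq_nonneg ‖p.2‖))]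
  refine (abs_sub _ _).trans ?_
  gcongr
  exact abs_mass_le p.2

lemma fe_bigO {m : ℕ} (hm : 1 ≤ m) {c : ℝ} (hc : 0 < c) :
    (fun p : ℝ × WA d k => fe m c p.1 p.2 - Qd m c p.2 p.2) =O[𝓝 0]
      fun p => (|p.1| + ‖p.2‖ ^ 2) * ‖p.2‖ := by
  have hsnd : Tendsto (fun p : ℝ × WA d k => p.2) (𝓝 0) (𝓝 0) := by
    exact continuous_snd.tendsto (0 : ℝ × WA d k)
  have hw : (fun p : ℝ × WA d k => p.2) =O[𝓝 0] fun p => ‖p.2‖ := (isBigO_refl _ _).norm_right
  have hn1 : (fun p : ℝ × WA d k => ‖p.2‖) =O[𝓝 0] fun _ => (1 : ℝ) := by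
    have : Tendsto (fun p : ℝ × WA d k => ‖p.2‖) (𝓝 0) (𝓝 ‖(0 : WA d k)‖) := hsnd.norm
    exact this.isBigO_one ℝ
  have hb := tendsto_bz (d := d) (k := k) hc
  have hinv : Tendsto (fun p : ℝ × WA d k => (bz c p.1 p.2)⁻¹) (𝓝 0) (𝓝 c⁻¹) :=
    hb.inv₀ hc.ne'
  have hx : Tendsto (fun p : ℝ × WA d k => (bz c p.1 p.2)⁻¹ • p.2) (𝓝 0) (𝓝 0) := by
    have := hinv.smul hsnd
    rwa [smul_zero] at this
  -- first term
  have t1 : (fun p : ℝ × WA d k => (bz c p.1 p.2 ^ (2 * m + 1)) •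
      (Pz (Nl m (1 + Pz ((bz c p.1 p.2)⁻¹ • p.2))) +
        ((m : ℝ) • (Complex.I • (Pz ((bz c p.1 p.2)⁻¹ • p.2) +
          conjL (Pz ((bz c p.1 p.2)⁻¹ • p.2)))) +
          Complex.I • Pz (q m (Pz ((bz c p.1 p.2)⁻¹ • p.2)))))) =O[𝓝 0]
      fun p => (|p.1| + ‖p.2‖ ^ 2) * ‖p.2‖ := by
    have h1 := (h_jet (d := d) (k := k) m).comp_tendsto hx
    have h2 : (fun p : ℝ × WA d k => bz c p.1 p.2 ^ (2 * m + 1)) =O[𝓝 0] fun _ => (1 : ℝ) :=
      (hb.pow _).isBigO_one ℝ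
    have h3 : (fun p : ℝ × WA d k => ‖(bz c p.1 p.2)⁻¹ • p.2‖ ^ 3) =O[𝓝 0]
        fun p => (|p.1| + ‖p.2‖ ^ 2) * ‖p.2‖ := by
      have h4 : (fun p : ℝ × WA d k => ‖(bz c p.1 p.2)⁻¹ • p.2‖) =O[𝓝 0] fun p => ‖p.2‖ := by
        have := ((hinv.isBigO_one ℝ).smul hw).norm_left
        simpa only [one_smul, smul_eq_mul, one_mul] using this
      refine (h4.pow 3).trans (IsBigO.of_bound 1 (Eventually.of_forall fun p => ?_))
      rw [one_mul, Real.norm_eq_abs, Real.norm_eq_abs, abs_of_nonneg (by positivity),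
        abs_of_nonneg (by positivity)]
      nlinarith [mul_nonneg (abs_nonneg p.1) (norm_nonneg p.2)]
    have h5 := h2.smul (h1.trans h3)
    simpa only [Function.comp_def, smul_eq_mul, one_mul] using h5
  have t2 : (fun p : ℝ × WA d k => (bz c p.1 p.2 ^ (2 * m) - c ^ (2 * m)) •
      ((m : ℝ) • (Complex.I • (Pz p.2 + conjL (Pz p.2))))) =O[𝓝 0]
      fun p => (|p.1| + ‖p.2‖ ^ 2) * ‖p.2‖ := by
    have h1 : (fun p : ℝ × WA d k => Pz p.2 + conjL (Pz p.2)) =O[𝓝 0] fun p => ‖p.2‖ := by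
      refine (Pz_bigO hw).add (IsBigO.of_bound 1 (Eventually.of_forall fun p => ?_))
      rw [norm_conjL, one_mul, norm_norm]
      exact norm_Pz_le _
    have := (pow_bigO (d := d) (k := k) hc (2 * m)).smul ((I_bigO h1).const_smul_left (m : ℝ))
    exact this
  have t3 : (fun p : ℝ × WA d k => (bz c p.1 p.2 ^ (2 * m - 1) - c ^ (2 * m - 1)) •
      (Complex.I • Pz (q m (Pz p.2)))) =O[𝓝 0] fun p => (|p.1| + ‖p.2‖ ^ 2) * ‖p.2‖ := by
    have h1 : (fun p : ℝ × WA d k => Complex.I • Pz (q m (Pz p.2))) =O[𝓝 0]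
        fun p => ‖p.2‖ := by
      refine (I_bigO (Pz_bigO (q_bigO m (Pz_bigO hw)))).trans ?_
      have := hn1.mul (isBigO_refl (fun p : ℝ × WA d k => ‖p.2‖) (𝓝 0))
      simpa only [one_mul, ← sq] using this
    exact (pow_bigO (d := d) (k := k) hc (2 * m - 1)).smul h1
  refine (t1.sub (t2.add t3)).congr' ?_ (EventuallyEq.refl _ _)
  have hne : ∀ᶠ p : ℝ × WA d k in 𝓝 0, bz c p.1 p.2 ≠ 0 := hb.eventually_ne hc.ne'
  filter_upwards [hne] with p hp
  exact (fe_eq hm hp).symm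

lemma contDiffAt_fe {m : ℕ} {c : ℝ} (hc : 0 < c) :
    ContDiffAt ℝ 1 (fun p : ℝ × WA d k => fe m c p.1 p.2) 0 := by
  have hb := contDiffAt_bz (d := d) (k := k) hc
  have h1 : ContDiffAt ℝ 2 (fun p : ℝ × WA d k => cst (bz c p.1 p.2) + Pz p.2) 0 := by
    unfold cst
    exact (hb.smul contDiffAt_const).add (Pz.contDiff.comp contDiff_snd).contDiffAt
  have h2 : ContDiffAt ℝ 2 (Nl m : WA d k → WA d k)
      (cst (bz c (0 : ℝ × WA d k).1 (0 : ℝ × WA d k).2) + Pz (0 : ℝ × WA d k).2) := by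
    apply contDiffAt_Nl
    rw [Prod.fst_zero, Prod.snd_zero, bz_zero hc, map_zero, add_zero, coef_cst, if_pos rfl]
    exact_mod_cast hc.ne'
  have h3 := (Pz (d := d) (k := k)).contDiff.contDiffAt.comp (0 : ℝ × WA d k)
    (h2.comp (0 : ℝ × WA d k) h1)
  have h4 : ContDiffAt ℝ 2 (fun p : ℝ × WA d k => Lin (m * c ^ (2 * m)) p.2) 0 :=
    ((Lin (d := d) (k := k) (m * c ^ (2 * m))).contDiff.comp contDiff_snd).contDiffAt
  exact (h3.sub h4).of_le one_le_two

end Nlin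

open Nlin in
/-- The nonlinearity is its quadratic part up to third order. -/
theorem fe_cubic {m : ℕ} (hm : 1 ≤ m) {c : ℝ} (hc : 0 < c) : ∃ C, 0 ≤ C ∧ ∃ dl, 0 < dl ∧
    ∀ (e : ℝ) (w : WA d k), 0 ≤ e → e ≤ dl → ‖w‖ ≤ dl →
      ‖fe m c e w - Qd m c w w‖ ≤ C * (‖w‖ ^ 3 + e * ‖w‖) := by
  obtain ⟨C, hC, hb⟩ := (fe_bigO (d := d) (k := k) hm hc).exists_pos
  rw [isBigOWith_iff, Metric.eventually_nhds_iff] at hb
  obtain ⟨ε, hε, hb⟩ := hb
  refine ⟨C, hC.le, ε / 2, half_pos hε, fun e w he hle hw => ?_⟩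
  have h := hb (y := (e, w)) (by
    rw [dist_zero_right, Prod.norm_def]
    refine lt_of_le_of_lt (max_le ?_ hw) (half_lt_self hε)
    rwa [Real.norm_eq_abs, abs_of_nonneg he])
  refine h.trans (le_of_eq ?_)
  rw [Real.norm_eq_abs, abs_of_nonneg (by positivity), abs_of_nonneg he]
  ring

open Nlin in
/-- The nonlinearity is Lipschitz near zero. -/
theorem fe_lip {m : ℕ} (hm : 1 ≤ m) {c : ℝ} (hc : 0 < c) : ∃ r0, 0 < r0 ∧ ∃ dl, 0 < dl ∧
    ∀ e, 0 ≤ e → e ≤ dl →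
      ∃ L : NNReal, LipschitzOnWith L (fe m c e : WA d k → WA d k) (closedBall 0 r0) := by
  obtain ⟨L, t, ht, hL⟩ := (contDiffAt_fe (d := d) (k := k) (m := m) hc).exists_lipschitzOnWith
  obtain ⟨ε, hε, hb⟩ := Metric.mem_nhds_iff.1 ht
  refine ⟨ε / 2, half_pos hε, ε / 2, half_pos hε, fun e he hle => ⟨L, ?_⟩⟩
  have hmem : ∀ w ∈ closedBall (0 : WA d k) (ε / 2), (e, w) ∈ t := by
    intro w hw
    apply hb
    rw [mem_ball, dist_zero_right, Prod.norm_def]
    rw [mem_closedBall, dist_zero_right] at hw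
    refine lt_of_le_of_lt (max_le ?_ hw) (half_lt_self hε)
    rwa [Real.norm_eq_abs, abs_of_nonneg he]
  intro x hx y hy
  have h := hL (hmem x hx) (hmem y hy)
  rwa [Prod.edist_eq, edist_self, max_eq_right (by simp)] at h

end Vale.Agent.P139.H836
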