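import Vale.Agent.P139.H836.Long

/-! The bound of the primitive of the quadratic part. -/

open Set Metric Filter Topology MeasureTheory
open scoped NNReal ComplexConjugate

namespace Vale.Agent.P139.H836.Prb

open Vale.Agent.P139.A Vale.Agent.P139.A.WA

variable {d k : ℕ}

/-! ### Scalar part -/

/-- The exponential `e^{i φ s}`. -/
noncomputable def ex (φ s : ℝ) : ℂ := Complex.exp (Complex.I * φ * s)

lemma ex_add (φ ψ s : ℝ) : ex (φ + ψ) s = ex φ s * ex ψ s := by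
  unfold ex
  rw [← Complex.exp_add]
  congr 1
  push_cast
  ring

lemma norm_ex (φ s : ℝ) : ‖ex φ s‖ = 1 := by
  unfold ex
  rw [show Complex.I * φ * s = ((φ * s : ℝ) : ℂ) * Complex.I by push_cast; ring]
  exact Complex.norm_exp_ofReal_mul_I _

lemma continuous_ex (φ : ℝ) : Continuous (ex φ) := by
  unfold ex
  fun_prop

lemma hasDerivAt_ex (φ s : ℝ) : HasDerivAt (ex φ) (Complex.I * φ * ex φ s) s := by
  unfold ex
  have h1 : HasDerivAt (fun s : ℝ => Complex.I * φ * (s : ℂ)) (Complex.I * φ) s := by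
    simpa using (Complex.ofRealCLM.hasDerivAt (x := s)).const_mul (Complex.I * φ)
  simpa [mul_comm] using h1.cexp

lemma conj_ex (φ s : ℝ) : conj (ex φ s) = ex (-φ) s := by
  unfold ex
  rw [← Complex.exp_conj]
  congr 1
  simp

/-- Continuous scalar functions with bounded primitive. -/
def Pm (K : ℝ) (f : ℝ → ℂ) : Prop := Continuous f ∧ ∀ t : ℝ, ‖∫ s in (0 : ℝ)..t, f s‖ ≤ K

lemma Pm.add {K L : ℝ} {f g : ℝ → ℂ} (hf : Pm K f) (hg : Pm L g) : Pm (K + L) (fun s => f s + g s) := by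
  refine ⟨hf.1.add hg.1, fun t => ?_⟩
  rw [intervalIntegral.integral_add (hf.1.intervalIntegrable _ _) (hg.1.intervalIntegrable _ _)]
  exact (norm_add_le _ _).trans (add_le_add (hf.2 t) (hg.2 t))

lemma Pm.mul_left {K : ℝ} {f : ℝ → ℂ} (z : ℂ) (hf : Pm K f) : Pm (‖z‖ * K) (fun s => z * f s) := by
  refine ⟨continuous_const.mul hf.1, fun t => ?_⟩
  rw [intervalIntegral.integral_const_mul, norm_mul]
  exact mul_le_mul_of_nonneg_left (hf.2 t) (norm_nonneg _)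

lemma Pm_ex {dl φ : ℝ} (hdl : 0 < dl) (h : dl ≤ |φ|) {z : ℂ} {C : ℝ} (hz : ‖z‖ ≤ C) :
    Pm (C * (2 / dl)) (fun s => z * ex φ s) := by
  refine ⟨continuous_const.mul (continuous_ex φ), fun t => ?_⟩
  have hφ : φ ≠ 0 := by
    intro h0
    rw [h0, abs_zero] at h
    linarith
  have hI : Complex.I * (φ : ℂ) ≠ 0 := mul_ne_zero Complex.I_ne_zero (by exact_mod_cast hφ)
  have h1 : ∀ s ∈ uIcc 0 t, HasDerivAt (fun s => (Complex.I * φ)⁻¹ * ex φ s) (ex φ s) s := by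
    intro s _
    have := (hasDerivAt_ex φ s).const_mul (Complex.I * φ)⁻¹
    rwa [← mul_assoc, inv_mul_cancel₀ hI, one_mul] at this
  rw [intervalIntegral.integral_const_mul, intervalIntegral.integral_eq_sub_of_hasDerivAt h1
    ((continuous_ex φ).intervalIntegrable _ _), norm_mul, ← mul_sub, norm_mul, norm_inv, norm_mul,
    Complex.norm_I, one_mul, Complex.norm_real, Real.norm_eq_abs]
  have h2 : ‖ex φ t - ex φ 0‖ ≤ 2 := by
    refine (norm_sub_le _ _).trans ?_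
    rw [norm_ex, norm_ex]
    norm_num
  have h3 : |φ|⁻¹ ≤ dl⁻¹ := by
    gcongr
  have hC : 0 ≤ C := (norm_nonneg _).trans hz
  calc ‖z‖ * (|φ|⁻¹ * ‖ex φ t - ex φ 0‖) ≤ C * (dl⁻¹ * 2) := by gcongr
    _ = C * (2 / dl) := by ring

/-- Combinations of `e^{± i ω s}`. -/
def Ex (ω C : ℝ) (f : ℝ → ℂ) : Prop :=
  ∃ p q : ℂ, ‖p‖ ≤ C ∧ ‖q‖ ≤ C ∧ ∀ s, f s = p * ex ω s + q * ex (-ω) s

lemma Ex.nonneg {ω C : ℝ} {f : ℝ → ℂ} (h : Ex ω C f) : 0 ≤ C := by
  obtain ⟨p, q, hp, -⟩ := h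
  exact (norm_nonneg _).trans hp

lemma Ex.mul_right {ω C : ℝ} {f : ℝ → ℂ} (h : Ex ω C f) (z : ℂ) :
    Ex ω (C * ‖z‖) (fun s => f s * z) := by
  obtain ⟨p, q, hp, hq, hf⟩ := h
  refine ⟨p * z, q * z, ?_, ?_, fun s => ?_⟩
  · rw [norm_mul]; gcongr
  · rw [norm_mul]; gcongr
  · simp only [hf s]; ring

lemma Ex.conj {ω C : ℝ} {f : ℝ → ℂ} (h : Ex ω C f) : Ex ω C (fun s => conj (f s)) := by
  obtain ⟨p, q, hp, hq, hf⟩ := h
  refine ⟨starRingEnd ℂ q, starRingEnd ℂ p, ?_, ?_, fun s => ?_⟩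
  · rwa [RCLike.norm_conj]
  · rwa [RCLike.norm_conj]
  · simp only [hf s, map_add, map_mul, conj_ex, neg_neg]; ring

lemma Ex.continuous {ω C : ℝ} {f : ℝ → ℂ} (h : Ex ω C f) : Continuous f := by
  obtain ⟨p, q, -, -, hf⟩ := h
  have : f = fun s => p * ex ω s + q * ex (-ω) s := funext hf
  rw [this]
  exact (continuous_const.mul (continuous_ex _)).add (continuous_const.mul (continuous_ex _))

lemma Pm_mul3 {dl ω₀ ω₁ ω₂ C₀ C₁ C₂ : ℝ} (hdl : 0 < dl) (h1 : dl ≤ |ω₀ + ω₁ + ω₂|)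
    (h2 : dl ≤ |ω₀ - ω₁ - ω₂|) (h3 : dl ≤ |ω₁ - ω₀ - ω₂|) (h4 : dl ≤ |ω₂ - ω₀ - ω₁|)
    {f₀ f₁ f₂ : ℝ → ℂ} (hf₀ : Ex ω₀ C₀ f₀) (hf₁ : Ex ω₁ C₁ f₁) (hf₂ : Ex ω₂ C₂ f₂) :
    Pm (16 / dl * (C₀ * C₁ * C₂)) (fun s => f₀ s * f₁ s * f₂ s) := by
  have hC0 := hf₀.nonneg
  have hC1 := hf₁.nonneg
  obtain ⟨p₀, q₀, hp₀, hq₀, e₀⟩ := hf₀
  obtain ⟨p₁, q₁, hp₁, hq₁, e₁⟩ := hf₁
  obtain ⟨p₂, q₂, hp₂, hq₂, e₂⟩ := hf₂
  have key : ∀ {x y z : ℂ} {φ : ℝ}, ‖x‖ ≤ C₀ → ‖y‖ ≤ C₁ → ‖z‖ ≤ C₂ → dl ≤ |φ| →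
      Pm (C₀ * C₁ * C₂ * (2 / dl)) (fun s => (x * y * z) * ex φ s) := by
    intro x y z φ hx hy hz hφ
    refine Pm_ex hdl hφ ?_
    rw [norm_mul, norm_mul]
    gcongr
  have a1 : |ω₀ + ω₁ + ω₂| = |(-ω₀) + (-ω₁) + (-ω₂)| := by
    rw [← abs_neg]; congr 1; ring
  have a2 : |ω₀ - ω₁ - ω₂| = |ω₀ + (-ω₁) + (-ω₂)| := by congr 1
  have a3 : |ω₀ - ω₁ - ω₂| = |(-ω₀) + ω₁ + ω₂| := by
    rw [← abs_neg]; congr 1; ring
  have a4 : |ω₁ - ω₀ - ω₂| = |(-ω₀) + ω₁ + (-ω₂)| := by congr 1; ring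
  have a5 : |ω₁ - ω₀ - ω₂| = |ω₀ + (-ω₁) + ω₂| := by
    rw [← abs_neg]; congr 1; ring
  have a6 : |ω₂ - ω₀ - ω₁| = |(-ω₀) + (-ω₁) + ω₂| := by congr 1; ring
  have a7 : |ω₂ - ω₀ - ω₁| = |ω₀ + ω₁ + (-ω₂)| := by
    rw [← abs_neg]; congr 1; ring
  have H := ((((((((key hp₀ hp₁ hp₂ h1)).add (key hq₀ hq₁ hq₂ (a1 ▸ h1))).add
    (key hp₀ hq₁ hq₂ (a2 ▸ h2))).add (key hq₀ hp₁ hp₂ (a3 ▸ h2))).add
    (key hq₀ hp₁ hq₂ (a4 ▸ h3))).add (key hp₀ hq₁ hp₂ (a5 ▸ h3))).add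
    (key hq₀ hq₁ hp₂ (a6 ▸ h4))).add (key hp₀ hp₁ hq₂ (a7 ▸ h4))
  have e : (fun s => f₀ s * f₁ s * f₂ s) = fun s => p₀ * p₁ * p₂ * ex (ω₀ + ω₁ + ω₂) s +
      q₀ * q₁ * q₂ * ex (-ω₀ + -ω₁ + -ω₂) s + p₀ * q₁ * q₂ * ex (ω₀ + -ω₁ + -ω₂) s +
      q₀ * p₁ * p₂ * ex (-ω₀ + ω₁ + ω₂) s + q₀ * p₁ * q₂ * ex (-ω₀ + ω₁ + -ω₂) s +
      p₀ * q₁ * p₂ * ex (ω₀ + -ω₁ + ω₂) s + q₀ * q₁ * p₂ * ex (-ω₀ + -ω₁ + ω₂) s +
      p₀ * p₁ * q₂ * ex (ω₀ + ω₁ + -ω₂) s := by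
    funext s
    simp only [e₀, e₁, e₂, ex_add]
    ring
  rw [e]
  refine ⟨H.1, fun t => (H.2 t).trans (le_of_eq ?_)⟩
  ring

lemma Ex_al {μ : ℝ} (hμ : 0 ≤ μ) {n : Lat d} (hn : n ≠ 0) :
    Ex (Om μ n) (2 + μ) (fun s => al μ s n) := by
  have h1 := one_le_Om hμ hn
  have h0 : (Om μ n : ℂ) ≠ 0 := by exact_mod_cast (by linarith : (0:ℝ) < Om μ n).ne'
  have h4 := sqNorm_nonneg n
  have h5 : sqNorm n + μ ≤ Om μ n * (1 + μ) := by
    have h6 := Om_sq hμ n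
    have h7 : sqNorm n ≤ Om μ n := by
      apply le_of_sq_le_sq _ (by linarith)
      rw [h6]
      nlinarith
    nlinarith
  have h8 : |(sqNorm n + μ) / Om μ n| ≤ 1 + μ := by
    rw [abs_of_nonneg (by positivity), div_le_iff₀ (by linarith)]
    linarith
  rw [abs_le] at h8
  refine ⟨(((1 - (sqNorm n + μ) / Om μ n) / 2 : ℝ) : ℂ), (((1 + (sqNorm n + μ) / Om μ n) / 2 : ℝ) : ℂ),
    ?_, ?_, fun s => ?_⟩
  · rw [Complex.norm_real, Real.norm_eq_abs, abs_le]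
    constructor <;> linarith [h8.1, h8.2]
  · rw [Complex.norm_real, Real.norm_eq_abs, abs_le]
    constructor <;> linarith [h8.1, h8.2]
  · unfold al ex
    push_cast
    rw [Complex.cos, Complex.sin]
    have e1 : Complex.I * (Om μ n : ℂ) * s = (Om μ n : ℂ) * s * Complex.I := by ring
    have e2 : Complex.I * (-(Om μ n : ℂ)) * s = -((Om μ n : ℂ) * s) * Complex.I := by ring
    rw [e1, e2]
    generalize Complex.exp ((Om μ n : ℂ) * s * Complex.I) = A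
    generalize Complex.exp (-((Om μ n : ℂ) * s) * Complex.I) = B
    have := Complex.I_sq
    field_simp
    linear_combination (-(sqNorm n + μ) * (B - A)) * this

lemma Ex_be {μ : ℝ} (hμ : 0 ≤ μ) {n : Lat d} (hn : n ≠ 0) :
    Ex (Om μ n) (2 + μ) (fun s => be μ s n) := by
  have h1 := one_le_Om hμ hn
  have h0 : (Om μ n : ℂ) ≠ 0 := by exact_mod_cast (by linarith : (0:ℝ) < Om μ n).ne'
  have h8 : |μ / (2 * Om μ n)| ≤ 2 + μ := by
    rw [abs_of_nonneg (by positivity), div_le_iff₀ (by linarith)]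
    nlinarith
  refine ⟨((-(μ / (2 * Om μ n)) : ℝ) : ℂ), ((μ / (2 * Om μ n) : ℝ) : ℂ), ?_, ?_, fun s => ?_⟩
  · rw [Complex.norm_real, Real.norm_eq_abs, abs_neg]
    exact h8
  · rw [Complex.norm_real, Real.norm_eq_abs]
    exact h8
  · unfold be ex
    push_cast
    rw [Complex.sin]
    have e1 : Complex.I * (Om μ n : ℂ) * s = (Om μ n : ℂ) * s * Complex.I := by ring
    have e2 : Complex.I * (-(Om μ n : ℂ)) * s = -((Om μ n : ℂ) * s) * Complex.I := by ring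
    rw [e1, e2]
    generalize Complex.exp ((Om μ n : ℂ) * s * Complex.I) = A
    generalize Complex.exp (-((Om μ n : ℂ) * s) * Complex.I) = B
    have := Complex.I_sq
    field_simp
    linear_combination (μ * (A - B)) * this

lemma Ex.neg_arg {ω C : ℝ} {f : ℝ → ℂ} (h : Ex ω C f) : Ex ω C (fun s => f (-s)) := by
  obtain ⟨p, q, hp, hq, hf⟩ := h
  refine ⟨q, p, hq, hp, fun s => ?_⟩
  have e1 : ∀ φ : ℝ, ex φ (-s) = ex (-φ) s := by
    intro φ
    unfold ex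
    congr 1
    push_cast
    ring
  simp only [hf (-s), e1, neg_neg]
  ring

/-! ### Single modes -/

lemma sg_summable (a : Lat d) (ξ : ℂ) : Summable fun n : Lat d => W k n * ‖(if n = a then ξ else 0 : ℂ)‖ :=
  summable_of_ne_finset_zero (s := {a}) (fun n hn => by
    rw [if_neg (by simpa using hn)]; simp)

/-- A single mode. -/
noncomputable def sg (a : Lat d) : ℂ →L[ℂ] WA d k :=
  LinearMap.mkContinuous
    { toFun := fun ξ => mk (fun n => if n = a then ξ else 0) (sg_summable a ξ)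
      map_add' := fun x y => by
        ext n
        simp only [coef_mk, coef_add]
        split_ifs <;> simp
      map_smul' := fun r x => by
        ext n
        simp only [coef_mk, coef_smul, RingHom.id_apply, smul_eq_mul]
        split_ifs <;> simp } (W k a) (fun ξ => by
        simp only [LinearMap.coe_mk, AddHom.coe_mk]
        rw [norm_eq]
        simp only [coef_mk]
        rw [tsum_eq_single a (fun n hn => by simp [hn])]
        simp)

lemma coef_sg (a : Lat d) (ξ : ℂ) (n : Lat d) :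
    coef (sg a ξ : WA d k) n = if n = a then ξ else 0 :=
  coef_mk _ (sg_summable a ξ) _

lemma norm_sg (a : Lat d) (ξ : ℂ) : ‖(sg a ξ : WA d k)‖ = W k a * ‖ξ‖ := by
  rw [norm_eq]
  simp only [coef_sg]
  rw [tsum_eq_single a (fun n hn => by simp [hn])]
  simp

lemma sg_mul (a b : Lat d) (ξ η : ℂ) :
    (sg a ξ : WA d k) * sg b η = sg (a + b) (ξ * η) := by
  ext n
  rw [coef_mul, coef_sg, tsum_eq_single a (fun m hm => by rw [coef_sg, if_neg hm, zero_mul]),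
    coef_sg, if_pos rfl, coef_sg]
  by_cases h : n = a + b
  · subst h
    simp
  · rw [if_neg h, if_neg (fun h' => h (by rw [← h']; abel)), mul_zero]

lemma conjL_sg (a : Lat d) (ξ : ℂ) : conjL (sg a ξ : WA d k) = sg (-a) (conj ξ) := by
  ext n
  rw [coef_conjL, coef_sg, coef_sg]
  by_cases h : -n = a
  · rw [if_pos h, if_pos (by rw [← h, neg_neg])]
  · rw [if_neg h, if_neg (fun h' => h (by rw [h', neg_neg])), map_zero]

lemma Pz_sg {a : Lat d} (ha : a ≠ 0) (ξ : ℂ) : Pz (sg a ξ : WA d k) = sg a ξ := by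
  ext n
  rw [coef_Pz, coef_sg]
  by_cases h : n = 0
  · rw [if_pos h, if_neg (by rw [h]; exact ha.symm)]
  · rw [if_neg h]

lemma Pz_sg_zero (ξ : ℂ) : Pz (sg 0 ξ : WA d k) = 0 := by
  ext n
  rw [coef_Pz, coef_sg]
  by_cases h : n = 0 <;> simp [h]

lemma S_sg {μ : ℝ} (hμ : 0 ≤ μ) (t : ℝ) (a : Lat d) (ξ : ℂ) :
    S k hμ t (sg a ξ : WA d k) = sg a (al μ t a * ξ) + sg (-a) (be μ t a * conj ξ) := by
  ext n
  rw [coef_S, coef_add, coef_sg, coef_sg, coef_sg, coef_sg]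
  by_cases h : n = a
  · subst h
    by_cases h2 : -n = n
    · rw [if_pos rfl, if_pos rfl, if_pos h2, if_pos h2.symm]
    · rw [if_pos rfl, if_pos rfl, if_neg h2, if_neg (fun h' => h2 h'.symm)]
      simp
  · by_cases h2 : -n = a
    · subst h2
      rw [if_neg h, if_neg h, if_pos rfl, if_pos (neg_neg n).symm, be_neg]
      simp
    · rw [if_neg h, if_neg h, if_neg h2, if_neg (fun h' => h2 (by rw [h', neg_neg]))]
      simp

lemma sg_I (a : Lat d) (ξ : ℂ) : Complex.I • (sg a ξ : WA d k) = sg a (Complex.I * ξ) := by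
  rw [← smul_eq_mul, map_smul]

lemma hasSum_sg (x : WA d k) : HasSum (fun n => (sg n (coef x n) : WA d k)) x := by
  have h1 : Summable fun n => (sg n (coef x n) : WA d k) :=
    Summable.of_norm (by simp_rw [norm_sg]; exact x.summable)
  have h2 : ∑' n, (sg n (coef x n) : WA d k) = x := by
    ext j
    have h3 := (coefL (k := k) j).map_tsum h1
    have h4 : ∀ y : WA d k, coefL j y = coef y j := fun y => rfl
    rw [h4] at h3
    rw [h3, tsum_eq_single j (fun n hn => by rw [h4, coef_sg, if_neg hn.symm]), h4, coef_sg,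
      if_pos rfl]
  have h5 := h1.hasSum
  rwa [h2] at h5

/-- A continuous linear map bounded on the single modes is bounded. -/
lemma bound_of_sg {E : Type*} [NormedAddCommGroup E] [NormedSpace ℝ E] (L : WA d k →L[ℝ] E)
    {C : ℝ} (h : ∀ n ξ, ‖L (sg n ξ)‖ ≤ C * (W k n * ‖ξ‖)) (x : WA d k) : ‖L x‖ ≤ C * ‖x‖ := by
  have h1 : HasSum (fun n => L (sg n (coef x n))) (L x) := (hasSum_sg x).mapL L
  have h2 : HasSum (fun n => C * (W k n * ‖coef x n‖)) (C * ‖x‖) := by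
    rw [norm_eq]
    exact x.summable.hasSum.mul_left C
  exact h1.norm_le_of_bounded h2 fun n => h n _

/-! ### Functions with bounded primitive -/

/-- Continuous functions with bounded primitive. -/
def Gd (K : ℝ) (G : ℝ → WA d k) : Prop :=
  Continuous G ∧ ∀ t : ℝ, ‖∫ s in (0 : ℝ)..t, G s‖ ≤ K

lemma Gd.add {K L : ℝ} {f g : ℝ → WA d k} (hf : Gd K f) (hg : Gd L g) :
    Gd (K + L) (fun s => f s + g s) := by
  refine ⟨hf.1.add hg.1, fun t => ?_⟩
  rw [intervalIntegral.integral_add (hf.1.intervalIntegrable _ _) (hg.1.intervalIntegrable _ _)]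
  exact (norm_add_le _ _).trans (add_le_add (hf.2 t) (hg.2 t))

lemma Gd.smul {K : ℝ} {f : ℝ → WA d k} (r : ℝ) (hf : Gd K f) : Gd (|r| * K) (fun s => r • f s) := by
  refine ⟨hf.1.const_smul r, fun t => ?_⟩
  rw [intervalIntegral.integral_smul, norm_smul, Real.norm_eq_abs]
  exact mul_le_mul_of_nonneg_left (hf.2 t) (abs_nonneg _)

lemma Gd.neg {K : ℝ} {f : ℝ → WA d k} (hf : Gd K f) : Gd K (fun s => -f s) := by
  refine ⟨hf.1.neg, fun t => ?_⟩
  rw [intervalIntegral.integral_neg, norm_neg]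
  exact hf.2 t

lemma Gd.mono {K L : ℝ} {f : ℝ → WA d k} (hf : Gd K f) (h : K ≤ L) : Gd L f :=
  ⟨hf.1, fun t => (hf.2 t).trans h⟩

lemma Gd.zero {K : ℝ} (hK : 0 ≤ K) : Gd K (fun _ => (0 : WA d k)) :=
  ⟨continuous_const, fun t => by simpa using hK⟩

lemma Gd.of_Pm {K : ℝ} {f : ℝ → ℂ} (hf : Pm K f) (n : Lat d) :
    Gd (W k n * K) (fun s => (sg n (f s) : WA d k)) := by
  refine ⟨(sg n).continuous.comp hf.1, fun t => ?_⟩
  rw [ContinuousLinearMap.intervalIntegral_comp_comm _ (hf.1.intervalIntegrable _ _), norm_sg]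
  exact mul_le_mul_of_nonneg_left (hf.2 t) (W_pos n).le

/-- The map `z ↦ S(-s) (i z)` on the nonzero modes. -/
noncomputable def Tm {μ : ℝ} (hμ : 0 ≤ μ) (s : ℝ) (z : WA d k) : WA d k :=
  S k hμ (-s) (Complex.I • Pz z)

lemma Tm_add {μ : ℝ} (hμ : 0 ≤ μ) (s : ℝ) (z w : WA d k) :
    Tm hμ s (z + w) = Tm hμ s z + Tm hμ s w := by
  simp only [Tm, map_add, smul_add]

lemma Tm_smul {μ : ℝ} (hμ : 0 ≤ μ) (s r : ℝ) (z : WA d k) :
    Tm hμ s (r • z) = r • Tm hμ s z := by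
  simp only [Tm, map_smul, smul_comm Complex.I r]

lemma Tm_zero_mode {μ : ℝ} (hμ : 0 ≤ μ) (s : ℝ) (ξ : ℂ) :
    Tm hμ s (sg 0 ξ : WA d k) = 0 := by
  simp only [Tm, Pz_sg_zero, smul_zero, map_zero]

lemma Tm_sg {μ : ℝ} (hμ : 0 ≤ μ) (s : ℝ) {n : Lat d} (hn : n ≠ 0) (ξ : ℂ) :
    Tm hμ s (sg n ξ : WA d k) = sg n (al μ (-s) n * (Complex.I * ξ)) +
      sg (-n) (be μ (-s) n * conj (Complex.I * ξ)) := by
  simp only [Tm, Pz_sg hn, sg_I, S_sg]

/-- The gap condition. -/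
def Gp (d : ℕ) (μ dl : ℝ) : Prop := ∀ a b : Lat d, a ≠ 0 → b ≠ 0 → a + b ≠ 0 →
  dl ≤ |Om μ (a + b) - Om μ a - Om μ b|

lemma gd_core {μ dl : ℝ} (hμ : 0 ≤ μ) (hdl : 0 < dl) (hg : Gp d μ dl) {a b : Lat d} (ha : a ≠ 0)
    (hb : b ≠ 0) {C₁ C₂ : ℝ} {f g : ℝ → ℂ} (hf : Ex (Om μ a) C₁ f) (hgg : Ex (Om μ b) C₂ g) :
    Gd (32 / dl * (2 + μ) * (W k a * C₁) * (W k b * C₂))
      (fun s => Tm hμ s ((sg a (f s) : WA d k) * sg b (g s))) := by
  have hC1 := hf.nonneg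
  have hC2 := hgg.nonneg
  have hWa := (W_pos (k := k) a).le
  have hWb := (W_pos (k := k) b).le
  by_cases hab : a + b = 0
  · simp_rw [sg_mul, hab, Tm_zero_mode]
    exact Gd.zero (by positivity)
  · have g1 := hg a b ha hb hab
    have g2 : dl ≤ |Om μ a - Om μ (a + b) - Om μ b| := by
      have := hg (a + b) (-b) hab (neg_ne_zero.2 hb) (by simpa using ha)
      rwa [add_neg_cancel_right, Om_neg] at this
    have g3 : dl ≤ |Om μ b - Om μ (a + b) - Om μ a| := by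
      have := hg (a + b) (-a) hab (neg_ne_zero.2 ha) (by simpa using hb)
      rwa [add_neg_cancel_comm, Om_neg] at this
    have n0 := one_le_Om hμ hab
    have n1 := one_le_Om hμ ha
    have n2 := one_le_Om hμ hb
    have g0 : dl ≤ |Om μ (a + b) + Om μ a + Om μ b| := by
      refine g1.trans ?_
      rw [abs_of_pos (by linarith : 0 < Om μ (a + b) + Om μ a + Om μ b), abs_le]
      constructor <;> linarith
    have hW : W k (a + b) ≤ W k a * W k b := W_add_le a b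
    have A1 := (Pm_mul3 hdl g0 g1 g2 g3 (Ex_al hμ hab).neg_arg hf hgg).mul_left Complex.I
    have A2 := (Pm_mul3 hdl g0 g1 g2 g3 (Ex_be hμ hab).neg_arg hf.conj hgg.conj).mul_left
      (-Complex.I)
    have B1 := Gd.of_Pm (k := k) A1 (a + b)
    have B2 := Gd.of_Pm (k := k) A2 (-(a + b))
    rw [W_neg] at B2
    have B := B1.add B2
    have e : (fun s => Tm hμ s ((sg a (f s) : WA d k) * sg b (g s))) = fun s =>
        (sg (a + b) (Complex.I * (al μ (-s) (a + b) * f s * g s)) : WA d k) +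
        sg (-(a + b)) (-Complex.I * (be μ (-s) (a + b) * conj (f s) * conj (g s))) := by
      funext s
      rw [sg_mul, Tm_sg hμ s hab]
      congr 1
      · congr 1
        ring
      · congr 1
        simp only [map_mul, Complex.conj_I]
        ring
    rw [e]
    refine B.mono ?_
    rw [norm_neg, Complex.norm_I, one_mul]
    have h5 : 0 ≤ 16 / dl * ((2 + μ) * C₁ * C₂) := by positivity
    calc W k (a + b) * (16 / dl * ((2 + μ) * C₁ * C₂)) +
          W k (a + b) * (16 / dl * ((2 + μ) * C₁ * C₂))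
        ≤ (W k a * W k b) * (16 / dl * ((2 + μ) * C₁ * C₂)) +
          (W k a * W k b) * (16 / dl * ((2 + μ) * C₁ * C₂)) := by gcongr
      _ = _ := by ring

/-- Pairs of modes `± a`. -/
def Sp (μ : ℝ) (a : Lat d) (C : ℝ) (X : ℝ → WA d k) : Prop :=
  ∃ f g : ℝ → ℂ, Ex (Om μ a) C f ∧ Ex (Om μ a) C g ∧ ∀ s, X s = sg a (f s) + sg (-a) (g s)

lemma Sp.conjL {μ C : ℝ} {a : Lat d} {X : ℝ → WA d k} (h : Sp μ a C X) :
    Sp μ a C (fun s => WA.conjL (X s)) := by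
  obtain ⟨f, g, hf, hg, hX⟩ := h
  refine ⟨_, _, hg.conj, hf.conj, fun s => ?_⟩
  simp only [hX s, map_add, conjL_sg, neg_neg]
  abel

lemma Sp.prod {μ dl : ℝ} (hμ : 0 ≤ μ) (hdl : 0 < dl) (hg : Gp d μ dl) {a b : Lat d} (ha : a ≠ 0)
    (hb : b ≠ 0) {C₁ C₂ : ℝ} {X Y : ℝ → WA d k} (hX : Sp μ a C₁ X) (hY : Sp μ b C₂ Y) :
    Gd (4 * (32 / dl * (2 + μ) * (W k a * C₁) * (W k b * C₂))) (fun s => Tm hμ s (X s * Y s)) := by
  obtain ⟨f, f', hf, hf', eX⟩ := hX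
  obtain ⟨g, g', hg1, hg', eY⟩ := hY
  have ha' := neg_ne_zero.2 ha
  have hb' := neg_ne_zero.2 hb
  have hf2 := hf'
  have hg2 := hg'
  rw [← Om_neg] at hf2 hg2
  have H := (((gd_core (k := k) hμ hdl hg ha hb hf hg1).add
    (gd_core (k := k) hμ hdl hg ha hb' hf hg2)).add
    (gd_core (k := k) hμ hdl hg ha' hb hf2 hg1)).add (gd_core (k := k) hμ hdl hg ha' hb' hf2 hg2)
  rw [W_neg, W_neg] at H
  have e : (fun s => Tm hμ s (X s * Y s)) = fun s => Tm hμ s ((sg a (f s) : WA d k) * sg b (g s)) +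
      Tm hμ s ((sg a (f s) : WA d k) * sg (-b) (g' s)) +
      Tm hμ s ((sg (-a) (f' s) : WA d k) * sg b (g s)) +
      Tm hμ s ((sg (-a) (f' s) : WA d k) * sg (-b) (g' s)) := by
    funext s
    rw [← Tm_add, ← Tm_add, ← Tm_add, eX s, eY s]
    congr 1
    ring
  rw [e]
  exact H.mono (le_of_eq (by ring))

lemma Sp_S {μ : ℝ} (hμ : 0 ≤ μ) {a : Lat d} (ha : a ≠ 0) (ξ : ℂ) :
    Sp μ a ((2 + μ) * ‖ξ‖) (fun s => Pz (S k hμ s (sg a ξ))) := by
  refine ⟨_, fun s => be μ s a * conj ξ, (Ex_al hμ ha).mul_right ξ, ?_, fun s => ?_⟩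
  · have := (Ex_be hμ ha).mul_right (conj ξ)
    rwa [RCLike.norm_conj] at this
  · simp only [S_sg, map_add, Pz_sg ha, Pz_sg (neg_ne_zero.2 ha)]

/-- The bound of the primitive for two single modes. -/
lemma single_bound (m : ℕ) (c : ℝ) {μ dl : ℝ} (hμ : 0 ≤ μ) (hdl : 0 < dl) (hg : Gp d μ dl) :
    ∃ K, 0 ≤ K ∧ ∀ (t : ℝ) (a b : Lat d) (ξ η : ℂ),
      ‖∫ s in (0 : ℝ)..t, Psi (S k hμ) (Qd m c) s (sg a ξ : WA d k) (sg b η)‖ ≤
        K * (W k a * ‖ξ‖) * (W k b * ‖η‖) := by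
  set A : ℝ := m * (m + 1) / 2 with hA
  set D : ℝ := m * (m - 1) / 2 with hD
  set K0 : ℝ := 4 * (32 / dl * (2 + μ) * (2 + μ) * (2 + μ)) with hK0
  have hK00 : 0 ≤ K0 := by positivity
  refine ⟨|c ^ (2 * m - 1)| * (|A| * K0 + |A| * (K0 + K0) + |D| * K0), by positivity,
    fun t a b ξ η => ?_⟩
  have hR : 0 ≤ |c ^ (2 * m - 1)| * (|A| * K0 + |A| * (K0 + K0) + |D| * K0) * (W k a * ‖ξ‖) *
      (W k b * ‖η‖) := by
    have := (W_pos (k := k) a).le
    have := (W_pos (k := k) b).le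
    positivity
  have e : ∀ s, Psi (S k hμ) (Qd m c) s (sg a ξ : WA d k) (sg b η) =
      -((c ^ (2 * m - 1)) • ((A • Tm hμ s (Pz (S k hμ s (sg a ξ)) * Pz (S k hμ s (sg b η))) +
        A • (Tm hμ s (Pz (S k hμ s (sg a ξ)) * WA.conjL (Pz (S k hμ s (sg b η)))) +
          Tm hμ s (WA.conjL (Pz (S k hμ s (sg a ξ))) * Pz (S k hμ s (sg b η))))) +
        D • Tm hμ s (WA.conjL (Pz (S k hμ s (sg a ξ))) *
          WA.conjL (Pz (S k hμ s (sg b η)))))) := by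
    intro s
    rw [Psi, Qd_apply, Qf, map_neg, map_smul]
    congr 2
    rw [← Tm_smul, ← Tm_add, ← Tm_smul, ← Tm_add, ← Tm_smul, ← Tm_add, Tm]
  simp_rw [e]
  by_cases ha : a = 0
  · subst ha
    have h0 : ∀ s, Pz (S k hμ s (sg 0 ξ : WA d k)) = 0 := fun s => by
      rw [S_sg, neg_zero, map_add, Pz_sg_zero, Pz_sg_zero, add_zero]
    have h1 : ∀ s, Tm hμ s (0 : WA d k) = 0 := fun s => by simp [Tm]
    simp only [h0, map_zero, zero_mul, h1, smul_zero, add_zero, neg_zero,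
      intervalIntegral.integral_zero, norm_zero]
    exact hR
  by_cases hb : b = 0
  · subst hb
    have h0 : ∀ s, Pz (S k hμ s (sg 0 η : WA d k)) = 0 := fun s => by
      rw [S_sg, neg_zero, map_add, Pz_sg_zero, Pz_sg_zero, add_zero]
    have h1 : ∀ s, Tm hμ s (0 : WA d k) = 0 := fun s => by simp [Tm]
    simp only [h0, map_zero, mul_zero, h1, smul_zero, add_zero, neg_zero,
      intervalIntegral.integral_zero, norm_zero]
    exact hR
  have hX := Sp_S (k := k) hμ ha ξ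
  have hY := Sp_S (k := k) hμ hb η
  have P1 := Sp.prod hμ hdl hg ha hb hX hY
  have P2 := Sp.prod hμ hdl hg ha hb hX hY.conjL
  have P3 := Sp.prod hμ hdl hg ha hb hX.conjL hY
  have P4 := Sp.prod hμ hdl hg ha hb hX.conjL hY.conjL
  have H := ((((P1.smul A).add ((P2.add P3).smul A)).add (P4.smul D)).smul
    (c ^ (2 * m - 1))).neg
  refine (H.2 t).trans (le_of_eq ?_)
  rw [hK0]
  ring

/-- **The bound of the primitive.** -/
theorem primBound (m : ℕ) (c : ℝ) {μ dl : ℝ} (hμ : 0 ≤ μ) (hdl : 0 < dl) (hg : Gp d μ dl) :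
    PrimBound d k m c hμ := by
  obtain ⟨K, hK0, hK⟩ := single_bound (k := k) m c hμ hdl hg
  refine ⟨K, hK0, fun t x y => ?_⟩
  have hM : (0 : ℝ) < 2 * (2 + μ) := by positivity
  have hS := fun t => norm_S_le (d := d) (k := k) hμ t
  have hSc := fun a => continuous_S (d := d) (k := k) hμ a
  -- crude bound
  have hP : ∀ s (x y : WA d k), ‖Psi (S k hμ) (Qd m c) s x y‖ ≤
      ((2 * (2 + μ)) ^ 3 * ‖(Qd m c : WA d k →L[ℝ] WA d k →L[ℝ] WA d k)‖) * ‖x‖ * ‖y‖ := by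
    intro s x y
    unfold Psi
    calc ‖S k hμ (-s) (Qd m c (S k hμ s x) (S k hμ s y))‖
        ≤ (2 * (2 + μ)) * ‖Qd m c (S k hμ s x) (S k hμ s y)‖ :=
          ((S k hμ (-s)).le_opNorm _).trans (by gcongr; exact hS _)
      _ ≤ (2 * (2 + μ)) * (‖(Qd m c : WA d k →L[ℝ] WA d k →L[ℝ] WA d k)‖ * ‖S k hμ s x‖ *
            ‖S k hμ s y‖) := by
          gcongr
          exact ContinuousLinearMap.le_opNorm₂ _ _ _
      _ ≤ (2 * (2 + μ)) * (‖(Qd m c : WA d k →L[ℝ] WA d k →L[ℝ] WA d k)‖ *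
            ((2 * (2 + μ)) * ‖x‖) * ((2 * (2 + μ)) * ‖y‖)) := by
          gcongr
          · exact ((S k hμ s).le_opNorm _).trans (by gcongr; exact hS _)
          · exact ((S k hμ s).le_opNorm _).trans (by gcongr; exact hS _)
      _ = _ := by ring
  have hc := fun x y => continuous_Psi (X := WA d k) hM hS hSc (Qd m c) x y
  have hI : ∀ x y : WA d k, ‖∫ s in (0 : ℝ)..t, Psi (S k hμ) (Qd m c) s x y‖ ≤
      (((2 * (2 + μ)) ^ 3 * ‖(Qd m c : WA d k →L[ℝ] WA d k →L[ℝ] WA d k)‖) * |t|) * ‖x‖ * ‖y‖ := by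
    intro x y
    have := intervalIntegral.norm_integral_le_of_norm_le_const (a := (0 : ℝ)) (b := t)
      (fun s _ => hP s x y)
    rw [sub_zero] at this
    exact this.trans (le_of_eq (by ring))
  -- the primitive as a linear map in each argument
  let B : WA d k →ₗ[ℝ] WA d k →ₗ[ℝ] WA d k :=
    LinearMap.mk₂ ℝ (fun x y => ∫ s in (0 : ℝ)..t, Psi (S k hμ) (Qd m c) s x y)
      (fun x x' y => by
        rw [← intervalIntegral.integral_add ((hc _ _).intervalIntegrable _ _)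
          ((hc _ _).intervalIntegrable _ _)]
        simp only [Psi, map_add, _root_.add_apply])
      (fun r x y => by
        rw [← intervalIntegral.integral_smul]
        simp only [Psi, map_smul, _root_.smul_apply])
      (fun x y y' => by
        rw [← intervalIntegral.integral_add ((hc _ _).intervalIntegrable _ _)
          ((hc _ _).intervalIntegrable _ _)]
        simp only [Psi, map_add])
      (fun r x y => by
        rw [← intervalIntegral.integral_smul]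
        simp only [Psi, map_smul])
  let L := B.mkContinuous₂ _ hI
  have hL : ∀ x y, L x y = ∫ s in (0 : ℝ)..t, Psi (S k hμ) (Qd m c) s x y := fun x y => rfl
  rw [← hL]
  -- extension in the second argument, for a single mode in the first
  have h1 : ∀ (a : Lat d) (ξ : ℂ), ‖L (sg a ξ) y‖ ≤ (K * (W k a * ‖ξ‖)) * ‖y‖ := by
    intro a ξ
    refine bound_of_sg (L (sg a ξ)) (fun b η => ?_) y
    rw [hL]
    exact hK t a b ξ η
  have h2 : ‖L.flip y x‖ ≤ (K * ‖y‖) * ‖x‖ := by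
    refine bound_of_sg (L.flip y) (fun a ξ => ?_) x
    rw [ContinuousLinearMap.flip_apply]
    exact (h1 a ξ).trans (le_of_eq (by ring))
  rw [ContinuousLinearMap.flip_apply] at h2
  exact h2.trans (le_of_eq (by ring))

end Vale.Agent.P139.H836.Prb
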