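import Vale.Agent.P139.H836.Long

/-! Block D: from the closed system for the nonzero modes to a gauged solution
(reconstruction of the zero mode by conservation of mass). -/

open Set Metric Filter Topology MeasureTheory
open scoped NNReal ComplexConjugate

namespace Vale.Agent.P139.H836

open Vale.Agent.P139.A Vale.Agent.P139.A.WA

variable {d k : ℕ}

lemma conjL_mul (a b : WA d k) : conjL (a * b) = conjL a * conjL b := by
  apply ev_injective
  intro x
  simp only [ev_mul, ev_conjL, map_mul]

lemma conjL_conjL (a : WA d k) : conjL (conjL a) = a := by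
  ext n
  simp [coef_conjL]

lemma conjL_pow (a : WA d k) (j : ℕ) : conjL (a ^ j) = (conjL a) ^ j := by
  apply ev_injective
  intro x
  simp only [ev_pow, ev_conjL, map_pow]

lemma hasSum_mul_conjL (a b : WA d k) :
    HasSum (fun n => coef a n * conj (coef b n)) (coef (a * conjL b) 0) := by
  have h1 : (fun n => coef a n * conj (coef b n)) =
      fun n => coef a n * coef (conjL b) (0 - n) := by
    funext n
    rw [coef_conjL, zero_sub, neg_neg]
  rw [h1, coef_mul]
  exact (Summable.of_norm (summable_conv_norm a (conjL b) 0)).hasSum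

lemma im_of_self {p : WA d k} (h : conjL p = p) : (coef p 0).im = 0 := by
  have h1 := congrArg (fun a => coef a 0) h
  simp only [coef_conjL, neg_zero] at h1
  exact Complex.conj_eq_iff_im.1 h1

lemma im_pow (v : WA d k) (j : ℕ) : (coef ((v * conjL v) ^ j) 0).im = 0 := by
  apply im_of_self
  rw [conjL_pow, conjL_mul, conjL_conjL, mul_comm]

/-- The nonlinearity conserves the mass. -/
lemma re_Nl_conj (m : ℕ) (v : WA d k) : (coef (Nl m v * conjL v) 0).re = 0 := by
  have h1 : Nl m v * conjL v = -(Complex.I • (v * conjL v) ^ (m + 1)) +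
      (g m v) • (Complex.I • (v * conjL v) ^ 1) := by
    unfold Nl F
    rw [add_mul, neg_mul, smul_mul_assoc, smul_mul_assoc, smul_mul_assoc, pow_one, mul_pow,
      mul_assoc, ← pow_succ]
  rw [h1]
  have h2 := im_pow v (m + 1)
  have h3 := im_pow v 1
  simp only [coef_add, coef_neg, coef_smul, coef_real_smul, Complex.add_re, Complex.neg_re,
    Complex.mul_re, Complex.mul_im, Complex.I_re, Complex.I_im, Complex.ofReal_re,
    Complex.ofReal_im]
  rw [h2, h3]
  ring

/-- The zero mode of the gauged nonlinearity is real when the zero mode is real. -/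
lemma im_Nl_zero (m : ℕ) {v : WA d k} {b : ℝ} (hb : b ≠ 0) (hv : coef v 0 = b) :
    (coef (Nl m v) 0).im = 0 := by
  unfold Nl g
  simp only [coef_add, coef_neg, coef_smul, coef_real_smul, hv, Complex.add_im, Complex.neg_im,
    Complex.mul_im, Complex.mul_re, Complex.I_re, Complex.I_im, Complex.ofReal_re,
    Complex.ofReal_im, Complex.div_ofReal_re]
  field_simp
  ring

/-- Derivative of the mass along a curve, from the coefficientwise derivatives. -/
theorem hasDeriv_mass {T : ℝ} (hT : 0 ≤ T) {w N : ℝ → WA d k} (hw : ContinuousOn w (Icc 0 T))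
    (hN : ContinuousOn N (Icc 0 T))
    (h : ∀ t ∈ Icc 0 T, ∀ n, HasDerivWithinAt (fun t => ‖coef (w t) n‖ ^ 2)
      (2 * (coef (N t) n * conj (coef (w t) n)).re) (Icc 0 T) t) :
    ∀ t ∈ Icc 0 T, HasDerivWithinAt (fun t => mass (w t)) (2 * (coef (N t * conjL (w t)) 0).re)
      (Icc 0 T) t := by
  let w' : ℝ → WA d k := IccExtend hT ((Icc 0 T).domRestrict w)
  let N' : ℝ → WA d k := IccExtend hT ((Icc 0 T).domRestrict N)
  have hw' : Continuous w' := hw.domRestrict.Icc_extend'
  have hN' : Continuous N' := hN.domRestrict.Icc_extend'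
  have hwt : ∀ t ∈ Icc 0 T, w' t = w t := fun t ht => by
    simp only [w', IccExtend_of_mem hT _ ht, domRestrict_apply]
  have hNt : ∀ t ∈ Icc 0 T, N' t = N t := fun t ht => by
    simp only [N', IccExtend_of_mem hT _ ht, domRestrict_apply]
  let q : Lat d → ℝ → ℝ := fun n s => 2 * (coef (N' s) n * conj (coef (w' s) n)).re
  let G : ℝ → ℝ := fun s => 2 * (coef (N' s * conjL (w' s)) 0).re
  have hcw : ∀ n, Continuous fun s => coef (w' s) n := fun n =>
    (coefR (d := d) (k := k) n).continuous.comp hw'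
  have hcN : ∀ n, Continuous fun s => coef (N' s) n := fun n =>
    (coefR (d := d) (k := k) n).continuous.comp hN'
  have hq : ∀ n, Continuous (q n) := fun n =>
    continuous_const.mul (Complex.continuous_re.comp
      ((hcN n).mul (Complex.continuous_conj.comp (hcw n))))
  have hG : Continuous G := by
    refine continuous_const.mul (Complex.continuous_re.comp ?_)
    exact (coefR (d := d) (k := k) 0).continuous.comp
      (hN'.mul ((conjL (d := d) (k := k)).continuous.comp hw'))
  have hsum : ∀ s, HasSum (fun n => q n s) (G s) := fun s =>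
    ((Complex.hasSum_re (hasSum_mul_conjL (N' s) (w' s))).mul_left 2)
  have hterm : ∀ t ∈ Icc 0 T, ∀ n,
      ∫ s in (0 : ℝ)..t, q n s = ‖coef (w t) n‖ ^ 2 - ‖coef (w 0) n‖ ^ 2 := by
    intro t ht n
    have hsub : Icc 0 t ⊆ Icc 0 T := Icc_subset_Icc_right ht.2
    have hd : ∀ s ∈ Icc 0 T, HasDerivWithinAt (fun t => ‖coef (w t) n‖ ^ 2) (q n s) (Icc 0 T) s := by
      intro s hs
      have := h s hs n
      simp only [q]
      rwa [hwt s hs, hNt s hs]
    refine intervalIntegral.integral_eq_sub_of_hasDerivAt_of_le ht.1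
      (fun s hs => ((hd s (hsub hs)).mono hsub).continuousWithinAt) (fun s hs => ?_)
      ((hq n).intervalIntegrable _ _)
    exact (hd s (hsub (Ioo_subset_Icc_self hs))).hasDerivAt
      (Icc_mem_nhds hs.1 (hs.2.trans_le ht.2))
  have hmass : ∀ a : WA d k, HasSum (fun n => ‖coef a n‖ ^ 2) (mass a) := by
    intro a
    have h1 := Complex.hasSum_re (hasSum_mul_conjL a a)
    refine h1.congr_fun ?_
    intro n
    rw [Complex.mul_conj, Complex.normSq_eq_norm_sq, Complex.ofReal_re]
  have hbd : ∀ (s : Finset (Lat d)) (x : ℝ), ‖∑ n ∈ s, q n x‖ ≤ 2 * (‖N' x‖ * ‖w' x‖) := by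
    intro s x
    calc ‖∑ n ∈ s, q n x‖ ≤ ∑ n ∈ s, ‖q n x‖ := norm_sum_le _ _
      _ ≤ ∑ n ∈ s, 2 * (‖coef (N' x) n‖ * ‖w' x‖) := by
          refine Finset.sum_le_sum fun n _ => ?_
          simp only [q, norm_mul, Real.norm_eq_abs]
          rw [abs_of_pos (by norm_num : (0:ℝ) < 2)]
          gcongr
          calc |(coef (N' x) n * conj (coef (w' x) n)).re| ≤ ‖coef (N' x) n * conj (coef (w' x) n)‖ :=
                Complex.abs_re_le_norm _
            _ = ‖coef (N' x) n‖ * ‖coef (w' x) n‖ := by rw [norm_mul, RCLike.norm_conj]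
            _ ≤ _ := by gcongr; exact norm_coef_le' _ _
      _ = 2 * ((∑ n ∈ s, ‖coef (N' x) n‖) * ‖w' x‖) := by
          rw [← Finset.mul_sum, Finset.sum_mul]
      _ ≤ 2 * (‖N' x‖ * ‖w' x‖) := by
          gcongr
          calc ∑ n ∈ s, ‖coef (N' x) n‖ ≤ ∑ n ∈ s, W k n * ‖coef (N' x) n‖ := by
                refine Finset.sum_le_sum fun n _ => ?_
                nlinarith [one_le_W (k := k) n, norm_nonneg (coef (N' x) n)]
            _ ≤ ‖N' x‖ := by
                rw [norm_eq]
                exact (N' x).summable.sum_le_tsum s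
                  (fun n _ => mul_nonneg (W_pos n).le (norm_nonneg _))
  have hM : ∀ t ∈ Icc 0 T, mass (w t) = mass (w 0) + ∫ s in (0 : ℝ)..t, G s := by
    intro t ht
    have h1 : Tendsto (fun s : Finset (Lat d) => ∫ x in (0 : ℝ)..t, ∑ n ∈ s, q n x) atTop
        (𝓝 (∫ x in (0 : ℝ)..t, G x)) := by
      refine intervalIntegral.tendsto_integral_filter_of_dominated_convergence
        (fun x => 2 * (‖N' x‖ * ‖w' x‖)) ?_ ?_ ?_ ?_
      · exact Eventually.of_forall fun s =>
          (continuous_finsetSum s fun n _ => hq n).aestronglyMeasurable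
      · exact Eventually.of_forall fun s => Eventually.of_forall fun x _ => hbd s x
      · exact (continuous_const.mul (hN'.norm.mul hw'.norm)).intervalIntegrable _ _
      · exact Eventually.of_forall fun x _ => hsum x
    have h2 : (fun s : Finset (Lat d) => ∫ x in (0 : ℝ)..t, ∑ n ∈ s, q n x) =
        fun s => ∑ n ∈ s, (‖coef (w t) n‖ ^ 2 - ‖coef (w 0) n‖ ^ 2) := by
      funext s
      rw [intervalIntegral.integral_finsetSum fun n _ => (hq n).intervalIntegrable _ _]
      exact Finset.sum_congr rfl fun n _ => hterm t ht n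
    rw [h2] at h1
    have h3 : HasSum (fun n => ‖coef (w t) n‖ ^ 2 - ‖coef (w 0) n‖ ^ 2)
        (mass (w t) - mass (w 0)) := (hmass (w t)).sub (hmass (w 0))
    have h4 := tendsto_nhds_unique h1 h3
    linarith
  intro t ht
  have h5 : HasDerivAt (fun t => ∫ s in (0 : ℝ)..t, G s) (G t) t :=
    intervalIntegral.integral_hasDerivAt_right (hG.intervalIntegrable _ _)
      (hG.stronglyMeasurableAtFilter _ _) hG.continuousAt
  have h6 : HasDerivWithinAt (fun t => mass (w 0) + ∫ s in (0 : ℝ)..t, G s) (G t) (Icc 0 T) t :=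
    (h5.hasDerivWithinAt).const_add _
  have h7 := h6.congr (fun s hs => hM s hs) (hM t ht)
  refine h7.congr_deriv ?_
  simp only [G]
  rw [hwt t ht, hNt t ht]

lemma Pz_of_zero {a : WA d k} (h : coef a 0 = 0) : Pz a = a := by
  ext n
  rw [coef_Pz]
  split_ifs with hn
  · rw [hn, h]
  · rfl

lemma continuous_mass : Continuous (mass : WA d k → ℝ) := by
  unfold mass
  refine Complex.continuous_re.comp ?_
  exact (coefR (d := d) (k := k) 0).continuous.comp
    (continuous_id.mul (conjL (d := d) (k := k)).continuous)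

/-- The reconstruction. -/
theorem recon {m : ℕ} {c : ℝ} (hc : 0 < c) {μ : ℝ} (hμ : 0 ≤ μ)
    (hmc : μ = m * c ^ (2 * m)) : Recon d k m c hμ := by
  intro T hT y hy0 hy hb
  set e : ℝ := mass (y 0) with he
  have he0 : 0 ≤ e := mass_nonneg _
  set w : ℝ → WA d k := fun t => S k hμ t (y t) with hw
  have hyc : ContinuousOn y (Icc 0 T) := fun t ht => (hy t ht).continuousWithinAt
  have hwc : ContinuousOn w (Icc 0 T) := continuousOn_S hμ hyc
  have h0T : (0 : ℝ) ∈ Icc 0 T := ⟨le_rfl, hT⟩
  have hw0 : w 0 = y 0 := S_zero hμ _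
  -- coefficientwise derivative of `w`
  have hwd : ∀ t ∈ Icc 0 T, ∀ n, HasDerivWithinAt (fun t => coef (w t) n)
      ((if n = 0 then 0 else -Complex.I * ((sqNorm n + μ) * coef (w t) n +
        μ * conj (coef (w t) (-n)))) + coef (fe m c e (w t)) n) (Icc 0 T) t := by
    intro t ht n
    have h1 := hasDeriv_S hμ (hy t ht) n
    rw [S_S_neg] at h1
    exact h1
  -- the zero mode vanishes
  have hwz : ∀ t ∈ Icc 0 T, coef (w t) 0 = 0 := by
    intro t ht
    have h1 := (convex_Icc (0 : ℝ) T).norm_image_sub_le_of_norm_hasDerivWithin_le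
      (f := fun t => coef (w t) 0) (C := 0) (fun s hs => hwd s hs 0) (fun s hs => ?_) h0T ht
    · rw [zero_mul] at h1
      have h2 := sub_eq_zero.1 (norm_le_zero_iff.1 h1)
      rw [h2, hw0, hy0]
    · rw [if_pos rfl, zero_add]
      unfold fe
      rw [coef_sub, coef_Pz, coef_Lin, if_pos rfl, if_pos rfl, sub_zero, norm_zero]
  have hwPz : ∀ t ∈ Icc 0 T, Pz (w t) = w t := fun t ht => Pz_of_zero (hwz t ht)
  -- the zero mode of `v`
  set R : ℝ → ℝ := fun t => c ^ 2 + e - mass (w t) with hR
  set b : ℝ → ℝ := fun t => Real.sqrt (R t) with hbdef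
  have hbz : ∀ t ∈ Icc 0 T, bz c e (w t) = b t := by
    intro t ht
    simp only [bz, hwPz t ht, hbdef, hR]
  have hRpos : ∀ t ∈ Icc 0 T, 0 < R t := by
    intro t ht
    have h1 : mass (w t) ≤ (c / 2) ^ 2 := (mass_le _).trans
      (pow_le_pow_left₀ (norm_nonneg _) (hb t ht) 2)
    have h2 : 0 < c ^ 2 := by positivity
    simp only [hR]
    nlinarith
  have hbpos : ∀ t ∈ Icc 0 T, 0 < b t := fun t ht => Real.sqrt_pos.2 (hRpos t ht)
  have hb0 : b 0 = c := by
    simp only [hbdef, hR, hw0, ← he]
    rw [add_sub_cancel_right, Real.sqrt_sq hc.le]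
  set v : ℝ → WA d k := fun t => cst (b t) + w t with hv
  have hmassc : ContinuousOn (fun t => mass (w t)) (Icc 0 T) :=
    continuous_mass.comp_continuousOn hwc
  have hbc : ContinuousOn b (Icc 0 T) :=
    Real.continuous_sqrt.comp_continuousOn (continuousOn_const.sub hmassc)
  have hvc : ContinuousOn v (Icc 0 T) := by
    refine ContinuousOn.add ?_ hwc
    unfold cst
    exact hbc.smul continuousOn_const
  have hv0 : ∀ t ∈ Icc 0 T, coef (v t) 0 = b t := by
    intro t ht
    simp only [hv, coef_add, coef_cst, if_pos, hwz t ht, add_zero]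
  have hvn : ∀ t, ∀ n : Lat d, n ≠ 0 → coef (v t) n = coef (w t) n := by
    intro t n hn
    simp only [hv, coef_add, coef_cst, if_neg hn, zero_add]
  have hv0' : ∀ t ∈ Icc 0 T, coef (v t) 0 ≠ 0 := by
    intro t ht
    rw [hv0 t ht]
    exact_mod_cast (hbpos t ht).ne'
  have hfe : ∀ t ∈ Icc 0 T, fe m c e (w t) = Pz (Nl m (v t)) - Lin μ (w t) := by
    intro t ht
    unfold fe
    rw [hbz t ht, hwPz t ht, hmc]
  -- derivative of the nonzero modes
  have hwd' : ∀ t ∈ Icc 0 T, ∀ n, n ≠ 0 → HasDerivWithinAt (fun t => coef (w t) n)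
      (-Complex.I * (sqNorm n * coef (w t) n) + coef (Nl m (v t)) n) (Icc 0 T) t := by
    intro t ht n hn
    refine (hwd t ht n).congr_deriv ?_
    rw [hfe t ht, coef_sub, coef_Pz, coef_Lin, if_neg hn, if_neg hn, if_neg hn]
    ring
  -- derivative of the mass
  have hNc : ContinuousOn (fun t => Nl m (v t)) (Icc 0 T) := fun t ht =>
    ((contDiffAt_Nl m (hv0' t ht)).continuousAt).comp_continuousWithinAt (hvc t ht)
  have hmd := hasDeriv_mass hT hwc hNc (fun t ht n => by
    by_cases hn : n = 0
    · subst hn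
      rw [hwz t ht]
      simp only [map_zero, mul_zero, Complex.zero_re]
      refine (hasDerivWithinAt_const t (Icc 0 T) (0 : ℝ)).congr (fun s hs => ?_) ?_
      · rw [hwz s hs]; simp
      · rw [hwz t ht]; simp
    · have h1 := hwd' t ht n hn
      have h2 := h1.norm_sq
      refine h2.congr_deriv ?_
      rw [Complex.inner]
      simp only [Complex.mul_re, Complex.add_re, Complex.add_im, Complex.mul_im, Complex.neg_re,
        Complex.neg_im, Complex.I_re, Complex.I_im, Complex.conj_re, Complex.conj_im,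
        Complex.ofReal_re, Complex.ofReal_im]
      ring)
  have hbd : ∀ t ∈ Icc 0 T, HasDerivWithinAt b ((coef (Nl m (v t)) 0).re) (Icc 0 T) t := by
    intro t ht
    have h1 : HasDerivWithinAt R (-(2 * (coef (Nl m (v t) * conjL (w t)) 0).re)) (Icc 0 T) t :=
      (hmd t ht).const_sub _
    have h2 := h1.sqrt (hRpos t ht).ne'
    refine h2.congr_deriv ?_
    have h3 : w t = v t - cst (b t) := by simp only [hv]; abel
    have h4 : (coef (Nl m (v t) * conjL (w t)) 0).re = - (b t * (coef (Nl m (v t)) 0).re) := by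
      rw [h3, map_sub, mul_sub, coef_sub, Complex.sub_re, re_Nl_conj, conjL_cst, zero_sub]
      unfold cst
      rw [mul_smul_comm, mul_one, coef_real_smul, Complex.re_ofReal_mul]
    rw [h4]
    have h5 := (hbpos t ht).ne'
    simp only [hbdef] at h5 ⊢
    field_simp
  refine ⟨v, ?_, hvc, hv0', fun t ht n => ?_⟩
  · simp only [hv, hb0, hw0]
  · by_cases hn : n = 0
    · subst hn
      have h1 : HasDerivWithinAt (fun t => ((b t : ℝ) : ℂ)) (((coef (Nl m (v t)) 0).re : ℝ) : ℂ)
          (Icc 0 T) t := (hbd t ht).ofReal_comp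
      have h2 := h1.congr (fun s hs => hv0 s hs) (hv0 t ht)
      refine h2.congr_deriv ?_
      rw [sqNorm_zero]
      have h3 := im_Nl_zero m (hbpos t ht).ne' (hv0 t ht)
      apply Complex.ext
      · simp
      · simp [h3]
    · have h1 := (hwd' t ht n hn).congr (fun s _ => hvn s n hn) (hvn t n hn)
      rwa [← hvn t n hn] at h1

end Vale.Agent.P139.H836
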