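import Vale.Agent.P139.H836.Fin
import Vale.Agent.P139.H836.Long
import Vale.Agent.P139.H836.Nlin
import Vale.Agent.P139.H836.PrimB
import Vale.Agent.P139.H836.Recon

/-! Assembly. -/

open MeasureTheory ProbabilityTheory Set Metric
open scoped ENNReal

namespace Vale.Agent.P139.H836

open Vale.Agent.P139.A Vale.Agent.P139.A.WA

variable {d k : ℕ}

theorem long2_all {m : ℕ} (hm : 1 ≤ m) {z : ℂ} (hz : z ≠ 0)
    (hg : GapC d (m * ‖z‖ ^ (2 * m))) : Long2 d k m z := by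
  have hμ : 0 ≤ (m : ℝ) * ‖z‖ ^ (2 * m) := by positivity
  have hc : 0 < ‖z‖ := norm_pos_iff.2 hz
  obtain ⟨dl, hdl, h⟩ := hg
  exact long2_of hz hμ (Prb.primBound m ‖z‖ hμ hdl h) (fe_cubic hm hc) (fe_lip hm hc)
    (recon hc hμ rfl)

theorem main3 {Ω : Type*} [MeasurableSpace Ω] (P : Measure Ω) {p : ℕ} (hp : Odd p) (hp3 : 3 ≤ p)
    (k : ℕ) (g : Lat d → Ω → ℂ) (hm : ∀ n, Measurable (g n))
    (hg : ∀ n, P.map (g n) = stdComplexGaussian) :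
    ∀ᵐ ω ∂P, ∃ c > 0, ∃ α₁ : ℝ, ∀ α ≥ α₁,
      ENNReal.ofReal (c * (2 : ℝ) ^ α) ≤ lifespan d p k (datum g α ω) :=
  main2 P hp hp3 k g hm hg fun _ hm _ hz hg => long2_all hm hz hg

end Vale.Agent.P139.H836
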