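import Vale.Agent.P139.H836.Long

/-! The primitive of the integrand of the quadratic normal form is a bounded bilinear map. -/

open Set Metric Filter Topology MeasureTheory
open scoped NNReal ComplexConjugate

namespace Vale.Agent.P139.H836

open Vale.Agent.P139.A Vale.Agent.P139.A.WA

section bd

variable {E : Type*} [NormedAddCommGroup E] [NormedSpace ℝ E]

/-- A continuous function all of whose primitives from `0` are bounded by `C`. -/
def Bd (C : ℝ) (F : ℝ → E) : Prop :=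
  Continuous F ∧ ∀ t : ℝ, ‖∫ s in (0 : ℝ)..t, F s‖ ≤ C

lemma Bd.add {C D : ℝ} {F G : ℝ → E} (hF : Bd C F) (hG : Bd D G) :
    Bd (C + D) (fun s => F s + G s) := by
  refine ⟨hF.1.add hG.1, fun t => ?_⟩
  rw [intervalIntegral.integral_add (hF.1.intervalIntegrable _ _) (hG.1.intervalIntegrable _ _)]
  exact (norm_add_le _ _).trans (add_le_add (hF.2 t) (hG.2 t))

lemma Bd.mono {C D : ℝ} {F : ℝ → E} (hF : Bd C F) (h : C ≤ D) : Bd D F :=
  ⟨hF.1, fun t => (hF.2 t).trans h⟩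

lemma Bd.zero {C : ℝ} (hC : 0 ≤ C) : Bd C (fun _ : ℝ => (0 : E)) :=
  ⟨continuous_const, fun t => by simpa using hC⟩

lemma Bd.clm {E' : Type*} [NormedAddCommGroup E'] [NormedSpace ℝ E'] [CompleteSpace E]
    [CompleteSpace E'] {C A : ℝ} {F : ℝ → E}
    (hF : Bd C F) (hA : 0 ≤ A) (L : E →L[ℝ] E') (hL : ∀ x, ‖L x‖ ≤ A * ‖x‖) :
    Bd (A * C) (fun s => L (F s)) := by
  refine ⟨L.continuous.comp hF.1, fun t => ?_⟩
  rw [L.intervalIntegral_comp_comm (hF.1.intervalIntegrable _ _)]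
  exact (hL _).trans (mul_le_mul_of_nonneg_left (hF.2 t) hA)

end bd

/-- `e^{iωs}`. -/
noncomputable def ex (ω s : ℝ) : ℂ := Complex.exp (((ω * s : ℝ) : ℂ) * Complex.I)

lemma ex_add (a b s : ℝ) : ex (a + b) s = ex a s * ex b s := by
  unfold ex
  rw [← Complex.exp_add]
  congr 1
  push_cast
  ring

lemma conj_ex (a s : ℝ) : conj (ex a s) = ex (-a) s := by
  unfold ex
  rw [← Complex.exp_conj]
  congr 1
  rw [map_mul, Complex.conj_ofReal, Complex.conj_I]
  push_cast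
  ring

lemma ex_neg_right (a s : ℝ) : ex a (-s) = ex (-a) s := by
  unfold ex
  congr 2
  push_cast
  ring

lemma norm_ex (a s : ℝ) : ‖ex a s‖ = 1 := Complex.norm_exp_ofReal_mul_I _

lemma continuous_ex (a : ℝ) : Continuous (ex a) := by
  unfold ex
  fun_prop

lemma ex_eq (a s : ℝ) : ex a s = (Real.cos (a * s) : ℂ) + (Real.sin (a * s) : ℂ) * Complex.I := by
  unfold ex
  rw [Complex.exp_mul_I, ← Complex.ofReal_cos, ← Complex.ofReal_sin]

lemma bd_ex {dl lam : ℝ} (hdl : 0 < dl) (h : dl ≤ |lam|) {c : ℂ} {M : ℝ} (hc : ‖c‖ ≤ M) :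
    Bd (M * (2 / dl)) (fun s => c * ex lam s) := by
  have hM : 0 ≤ M := (norm_nonneg c).trans hc
  refine ⟨continuous_const.mul (continuous_ex _), fun t => ?_⟩
  have h0 : lam ≠ 0 := by
    intro h1
    rw [h1, abs_zero] at h
    linarith
  have h2 : ((lam : ℂ) * Complex.I) ≠ 0 := by
    simp [h0]
  have h3 : ∀ s : ℝ, c * ex lam s = c * Complex.exp (((lam : ℂ) * Complex.I) * s) := by
    intro s
    unfold ex
    congr 2
    push_cast
    ring
  simp_rw [h3]
  rw [intervalIntegral.integral_const_mul, integral_exp_mul_complex h2, norm_mul, norm_div]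
  have h4 : ‖Complex.exp ((lam : ℂ) * Complex.I * (t : ℝ)) -
      Complex.exp ((lam : ℂ) * Complex.I * ((0 : ℝ) : ℂ))‖ ≤ 2 := by
    refine (norm_sub_le _ _).trans ?_
    have h5 : ∀ s : ℝ, ‖Complex.exp ((lam : ℂ) * Complex.I * (s : ℝ))‖ = 1 := by
      intro s
      have : (lam : ℂ) * Complex.I * (s : ℝ) = ((lam * s : ℝ) : ℂ) * Complex.I := by
        push_cast
        ring
      rw [this]
      exact Complex.norm_exp_ofReal_mul_I _
    rw [h5, h5]
    norm_num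
  have h6 : ‖(lam : ℂ) * Complex.I‖ = |lam| := by
    rw [norm_mul, Complex.norm_I, mul_one, Complex.norm_real, Real.norm_eq_abs]
  rw [h6]
  gcongr

/-- `f s = p e^{iωs} + q e^{-iωs}` with `|p|, |q| ≤ M`. -/
def Osc (ω M : ℝ) (f : ℝ → ℂ) : Prop :=
  ∃ p q : ℂ, ‖p‖ ≤ M ∧ ‖q‖ ≤ M ∧ ∀ s : ℝ, f s = p * ex ω s + q * ex (-ω) s

lemma Osc.conj {ω M : ℝ} {f : ℝ → ℂ} (hf : Osc ω M f) : Osc ω M (fun s => conj (f s)) := by
  obtain ⟨p, q, hp, hq, h⟩ := hf
  refine ⟨conj q, conj p, by rwa [RCLike.norm_conj], by rwa [RCLike.norm_conj], fun s => ?_⟩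
  simp only [h, map_add, map_mul, conj_ex, neg_neg]
  ring

lemma Osc.flip {ω M : ℝ} {f : ℝ → ℂ} (hf : Osc ω M f) : Osc ω M (fun s => f (-s)) := by
  obtain ⟨p, q, hp, hq, h⟩ := hf
  refine ⟨q, p, hq, hp, fun s => ?_⟩
  simp only [h, ex_neg_right, neg_neg]
  ring

lemma Osc.const_mul {ω M : ℝ} {f : ℝ → ℂ} (hf : Osc ω M f) {c : ℂ} {C : ℝ} (hc : ‖c‖ ≤ C) :
    Osc ω (C * M) (fun s => c * f s) := by
  obtain ⟨p, q, hp, hq, h⟩ := hf
  have hC : 0 ≤ C := (norm_nonneg c).trans hc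
  refine ⟨c * p, c * q, ?_, ?_, fun s => ?_⟩
  · rw [norm_mul]
    exact mul_le_mul hc hp (norm_nonneg _) hC
  · rw [norm_mul]
    exact mul_le_mul hc hq (norm_nonneg _) hC
  · simp only [h]
    ring

lemma Osc.mul_const {ω M : ℝ} {f : ℝ → ℂ} (hf : Osc ω M f) (c : ℂ) :
    Osc ω (M * ‖c‖) (fun s => f s * c) := by
  have h := hf.const_mul (c := c) le_rfl
  rw [mul_comm] at h
  simpa only [mul_comm] using h

/-- Product of three oscillations without resonance. -/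
lemma bd_osc3 {dl ω1 ω2 ω3 M1 M2 M3 : ℝ} (hdl : 0 < dl) (h0 : dl ≤ |ω1 + ω2 + ω3|)
    (h1 : dl ≤ |ω1 - ω2 - ω3|) (h2 : dl ≤ |ω2 - ω1 - ω3|) (h3 : dl ≤ |ω3 - ω1 - ω2|)
    {f g h : ℝ → ℂ} (hf : Osc ω1 M1 f) (hg : Osc ω2 M2 g) (hh : Osc ω3 M3 h) :
    Bd (16 / dl * (M1 * (M2 * M3))) (fun s => f s * (g s * h s)) := by
  obtain ⟨p1, q1, hp1, hq1, hf⟩ := hf
  obtain ⟨p2, q2, hp2, hq2, hg⟩ := hg
  obtain ⟨p3, q3, hp3, hq3, hh⟩ := hh
  have key : ∀ {x y z : ℂ}, ‖x‖ ≤ M1 → ‖y‖ ≤ M2 → ‖z‖ ≤ M3 → ∀ {lam : ℝ}, dl ≤ |lam| →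
      Bd (M1 * (M2 * M3) * (2 / dl)) (fun s => (x * (y * z)) * ex lam s) := by
    intro x y z hx hy hz lam hlam
    refine bd_ex hdl hlam ?_
    rw [norm_mul, norm_mul]
    have := (norm_nonneg x).trans hx
    have := (norm_nonneg y).trans hy
    gcongr
  have e1 : dl ≤ |-ω1 + ω2 + ω3| := by
    rwa [← abs_neg, show -(-ω1 + ω2 + ω3) = ω1 - ω2 - ω3 by ring]
  have e2 : dl ≤ |ω1 + -ω2 + ω3| := by
    rwa [← abs_neg, show -(ω1 + -ω2 + ω3) = ω2 - ω1 - ω3 by ring]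
  have e3 : dl ≤ |ω1 + ω2 + -ω3| := by
    rwa [← abs_neg, show -(ω1 + ω2 + -ω3) = ω3 - ω1 - ω2 by ring]
  have e4 : dl ≤ |ω1 + -ω2 + -ω3| := by
    rwa [show ω1 + -ω2 + -ω3 = ω1 - ω2 - ω3 by ring]
  have e5 : dl ≤ |-ω1 + ω2 + -ω3| := by
    rwa [show -ω1 + ω2 + -ω3 = ω2 - ω1 - ω3 by ring]
  have e6 : dl ≤ |-ω1 + -ω2 + ω3| := by
    rwa [show -ω1 + -ω2 + ω3 = ω3 - ω1 - ω2 by ring]
  have e7 : dl ≤ |-ω1 + -ω2 + -ω3| := by
    rwa [← abs_neg, show -(-ω1 + -ω2 + -ω3) = ω1 + ω2 + ω3 by ring]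
  have H := (((key hp1 hp2 hp3 h0).add (key hp1 hp2 hq3 e3)).add
    ((key hp1 hq2 hp3 e2).add (key hp1 hq2 hq3 e4))).add
    (((key hq1 hp2 hp3 e1).add (key hq1 hp2 hq3 e5)).add
    ((key hq1 hq2 hp3 e6).add (key hq1 hq2 hq3 e7)))
  have H2 := H.mono (D := 16 / dl * (M1 * (M2 * M3))) (le_of_eq (by ring))
  refine cast (congrArg _ ?_) H2
  funext s
  rw [hf, hg, hh]
  simp only [ex_add]
  ring

variable {d k : ℕ}

lemma sg_summable (k : ℕ) (n : Lat d) (z : ℂ) :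
    Summable fun m : Lat d => W k m * ‖if m = n then z else 0‖ :=
  summable_of_ne_finset_zero (s := {n}) (fun m hm => by
    simp only [Finset.mem_singleton] at hm
    simp [hm])

/-- The single mode `z e^{inx}`. -/
noncomputable def sg (k : ℕ) {d : ℕ} (n : Lat d) : ℂ →L[ℝ] WA d k :=
  LinearMap.mkContinuous
    { toFun := fun z => mk (fun m => if m = n then z else 0) (sg_summable k n z)
      map_add' := fun a b => by
        ext m
        simp only [coef_mk, coef_add]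
        split_ifs <;> simp
      map_smul' := fun r a => by
        ext m
        simp only [coef_mk, coef_real_smul, RingHom.id_apply]
        split_ifs <;> simp } (W k n) (fun z => by
        simp only [LinearMap.coe_mk, AddHom.coe_mk]
        rw [norm_eq]
        simp only [coef_mk]
        rw [tsum_eq_single n (fun m hm => by simp [hm])]
        simp)

lemma coef_sg (n : Lat d) (z : ℂ) (m : Lat d) :
    coef (sg k n z) m = if m = n then z else 0 := coef_mk _ (sg_summable k n z) _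

lemma norm_sg (n : Lat d) (z : ℂ) : ‖sg k n z‖ = W k n * ‖z‖ := by
  rw [norm_eq, tsum_eq_single n (fun m hm => by simp [coef_sg, hm])]
  simp [coef_sg]

lemma sg_mul (a b : Lat d) (z w : ℂ) : sg k a z * sg k b w = sg k (a + b) (z * w) := by
  ext n
  rw [coef_mul, tsum_eq_single a (fun m hm => by rw [coef_sg, if_neg hm, zero_mul])]
  simp only [coef_sg, if_true]
  by_cases h : n = a + b
  · rw [if_pos (by rw [h]; abel), if_pos h]
  · rw [if_neg (fun h' => h (by rw [← h']; abel)), if_neg h, mul_zero]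

lemma conjL_sg (a : Lat d) (z : ℂ) : conjL (sg k a z) = sg k (-a) (conj z) := by
  ext n
  rw [coef_conjL, coef_sg, coef_sg]
  by_cases h : n = -a
  · rw [if_pos (by rw [h, neg_neg]), if_pos h]
  · rw [if_neg (fun h' => h (by rw [← h', neg_neg])), if_neg h, map_zero]

lemma Pz_sg {a : Lat d} (ha : a ≠ 0) (z : ℂ) : Pz (sg k a z) = sg k a z := by
  ext n
  rw [coef_Pz, coef_sg]
  by_cases h : n = 0
  · rw [if_pos h, if_neg (fun h' => ha (by rw [← h', h]))]
  · rw [if_neg h]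

lemma Pz_sg_zero (z : ℂ) : Pz (sg k (0 : Lat d) z) = 0 := by
  ext n
  rw [coef_Pz, coef_sg, coef_zero]
  by_cases h : n = 0
  · rw [if_pos h]
  · rw [if_neg h, if_neg h]

lemma S_sg {μ : ℝ} (hμ : 0 ≤ μ) (s : ℝ) (a : Lat d) (z : ℂ) :
    S k hμ s (sg k a z) = sg k a (al μ s a * z) + sg k (-a) (be μ s a * conj z) := by
  ext n
  rw [coef_S, coef_add, coef_sg, coef_sg, coef_sg, coef_sg]
  congr 1
  · by_cases h : n = a
    · rw [if_pos h, if_pos h, h]
    · rw [if_neg h, if_neg h, mul_zero]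
  · by_cases h : n = -a
    · rw [if_pos (by rw [h, neg_neg]), if_pos h, h, be_neg]
    · rw [if_neg (fun h' => h (by rw [← h', neg_neg])), if_neg h, map_zero, mul_zero]

lemma Qf_sg (m : ℕ) (c : ℝ) {a b : Lat d} (ha : a ≠ 0) (hb : b ≠ 0) (z w : ℂ) :
    Qd m c (sg k a z) (sg k b w) =
      (Pz (sg k (a + b) (((-(c ^ (2 * m - 1) * (m * (m + 1) / 2) : ℝ) : ℂ) * Complex.I * z) * w)) +
      Pz (sg k (a + -b) (((-(c ^ (2 * m - 1) * (m * (m + 1) / 2) : ℝ) : ℂ) * Complex.I * z) *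
        conj w))) +
      (Pz (sg k (-a + b) (((-(c ^ (2 * m - 1) * (m * (m + 1) / 2) : ℝ) : ℂ) * Complex.I * conj z) *
        w)) +
      Pz (sg k (-a + -b) (((-(c ^ (2 * m - 1) * (m * (m - 1) / 2) : ℝ) : ℂ) * Complex.I * conj z) *
        conj w))) := by
  rw [Qd_apply]
  unfold Qf
  rw [Pz_sg ha, Pz_sg hb, conjL_sg, conjL_sg, sg_mul, sg_mul, sg_mul, sg_mul]
  ext n
  simp only [coef_neg, coef_real_smul, coef_smul, coef_Pz, coef_add, coef_sg]
  by_cases h : n = 0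
  · simp only [h, if_true]
    ring
  · simp only [h, if_false]
    split_ifs <;> push_cast <;> ring

lemma osc_al {μ : ℝ} (hμ : 0 ≤ μ) {n : Lat d} (hn : n ≠ 0) :
    Osc (Om μ n) (2 + μ) (fun s => al μ s n) := by
  have h1 := one_le_Om hμ hn
  have h0 : 0 < Om μ n := by linarith
  set R : ℝ := (sqNorm n + μ) / Om μ n with hR
  have hR0 : 0 ≤ R := by
    have := sqNorm_nonneg n
    positivity
  have hR1 : R ≤ 1 + μ := by
    rw [hR, div_le_iff₀ h0]
    have h6 := Om_sq hμ n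
    have h4 := sqNorm_nonneg n
    have h7 : sqNorm n ≤ Om μ n := by
      apply le_of_sq_le_sq _ (by linarith)
      rw [h6]
      nlinarith
    nlinarith
  refine ⟨((1 - R) / 2 : ℝ), ((1 + R) / 2 : ℝ), ?_, ?_, fun s => ?_⟩
  · rw [Complex.norm_real, Real.norm_eq_abs, abs_le]
    constructor <;> linarith
  · rw [Complex.norm_real, Real.norm_eq_abs, abs_le]
    constructor <;> linarith
  · unfold al
    beta_reduce
    rw [ex_eq, ex_eq, neg_mul, Real.cos_neg, Real.sin_neg]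
    have : (sqNorm n + μ) * Real.sin (Om μ n * s) / Om μ n = R * Real.sin (Om μ n * s) := by
      rw [hR]
      ring
    rw [this]
    push_cast
    ring

lemma osc_be {μ : ℝ} (hμ : 0 ≤ μ) {n : Lat d} (hn : n ≠ 0) :
    Osc (Om μ n) (2 + μ) (fun s => be μ s n) := by
  have h1 := one_le_Om hμ hn
  have h0 : 0 < Om μ n := by linarith
  set R : ℝ := μ / Om μ n with hR
  have hR0 : 0 ≤ R := by positivity
  have hR1 : R ≤ 1 + μ := by
    rw [hR, div_le_iff₀ h0]
    nlinarith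
  refine ⟨(-(R / 2) : ℝ), ((R / 2) : ℝ), ?_, ?_, fun s => ?_⟩
  · rw [Complex.norm_real, Real.norm_eq_abs, abs_le]
    constructor <;> linarith
  · rw [Complex.norm_real, Real.norm_eq_abs, abs_le]
    constructor <;> linarith
  · unfold be
    beta_reduce
    rw [ex_eq, ex_eq, neg_mul (Om μ n) s, Real.cos_neg, Real.sin_neg]
    have : μ * Real.sin (Om μ n * s) / Om μ n = R * Real.sin (Om μ n * s) := by
      rw [hR]
      ring
    rw [this]
    push_cast
    ring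

lemma Osc.neg_freq {μ M : ℝ} {n : Lat d} {f : ℝ → ℂ} (hf : Osc (Om μ n) M f) :
    Osc (Om μ (-n)) M f := by rwa [Om_neg]

lemma Osc.nonneg {ω M : ℝ} {f : ℝ → ℂ} (hf : Osc ω M f) : 0 ≤ M := by
  obtain ⟨p, q, hp, hq, h⟩ := hf
  exact (norm_nonneg p).trans hp

/-- The nonresonance condition. -/
def NR3 (d : ℕ) (μ dl : ℝ) : Prop :=
  ∀ a b : Lat d, a ≠ 0 → b ≠ 0 → a + b ≠ 0 → dl ≤ |Om μ (a + b) - Om μ a - Om μ b|

/-- One quadratic interaction of two modes. -/
lemma bd_term {μ dl : ℝ} (hμ : 0 ≤ μ) (hdl : 0 < dl) (hgap : NR3 d μ dl) {a b : Lat d}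
    (ha : a ≠ 0) (hb : b ≠ 0) {f g : ℝ → ℂ} {M1 M2 : ℝ} (hf : Osc (Om μ a) M1 f)
    (hg : Osc (Om μ b) M2 g) :
    Bd (W k a * W k b * (32 * (2 + μ) / dl * (M1 * M2)))
      (fun s => S k hμ (-s) (Pz (sg k (a + b) (f s * g s)))) := by
  have hM1 := hf.nonneg
  have hM2 := hg.nonneg
  have hWa := (W_pos (k := k) a).le
  have hWb := (W_pos (k := k) b).le
  by_cases hab : a + b = 0
  · have : (fun s => S k hμ (-s) (Pz (sg k (a + b) (f s * g s)))) = fun _ => 0 := by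
      funext s
      rw [hab, Pz_sg_zero, map_zero]
    rw [this]
    exact Bd.zero (by positivity)
  · have h1 := one_le_Om hμ hab
    have h2 := one_le_Om hμ ha
    have h3 := one_le_Om hμ hb
    have g1 : dl ≤ |Om μ (a + b) - Om μ a - Om μ b| := hgap a b ha hb hab
    have g0 : dl ≤ |Om μ (a + b) + Om μ a + Om μ b| := by
      refine g1.trans ?_
      rw [abs_of_nonneg (by positivity : 0 ≤ Om μ (a + b) + Om μ a + Om μ b), abs_le]
      constructor <;> linarith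
    have g2 : dl ≤ |Om μ a - Om μ (a + b) - Om μ b| := by
      have := hgap (a + b) (-b) hab (neg_ne_zero.2 hb) (by rwa [add_neg_cancel_right])
      rwa [add_neg_cancel_right, Om_neg] at this
    have g3 : dl ≤ |Om μ b - Om μ (a + b) - Om μ a| := by
      have e : a + b + -a = b := by abel
      have := hgap (a + b) (-a) hab (neg_ne_zero.2 ha) (by rwa [e])
      rwa [e, Om_neg] at this
    have A1 := bd_osc3 hdl g0 g1 g2 g3 (osc_al hμ hab).flip hf hg
    have A2 := bd_osc3 hdl g0 g1 g2 g3 (osc_be hμ hab).flip hf.conj hg.conj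
    have B1 := A1.clm (W_pos (k := k) (a + b)).le (sg k (a + b)) (fun x => (norm_sg _ _).le)
    have B2 := A2.clm (W_pos (k := k) (-(a + b))).le (sg k (-(a + b))) (fun x => (norm_sg _ _).le)
    have C := B1.add B2
    have hW := W_add_le (k := k) a b
    rw [W_neg] at C
    have C2 := C.mono (D := W k a * W k b * (32 * (2 + μ) / dl * (M1 * M2))) (by
      calc W k (a + b) * (16 / dl * ((2 + μ) * (M1 * M2))) +
            W k (a + b) * (16 / dl * ((2 + μ) * (M1 * M2)))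
          = W k (a + b) * (32 * (2 + μ) / dl * (M1 * M2)) := by ring
        _ ≤ _ := by gcongr)
    refine cast (congrArg _ ?_) C2
    funext s
    rw [Pz_sg hab, S_sg, map_mul (starRingEnd ℂ)]

/-- The quadratic interactions of two oscillating modes. -/
lemma bd_Q {μ dl : ℝ} (hμ : 0 ≤ μ) (hdl : 0 < dl) (hgap : NR3 d μ dl) (m : ℕ) (c : ℝ)
    {Γ : ℝ} (h1 : |c ^ (2 * m - 1) * (m * (m + 1) / 2)| ≤ Γ)
    (h2 : |c ^ (2 * m - 1) * (m * (m - 1) / 2)| ≤ Γ) {a b : Lat d}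
    (ha : a ≠ 0) (hb : b ≠ 0) {f g : ℝ → ℂ} {M1 M2 : ℝ} (hf : Osc (Om μ a) M1 f)
    (hg : Osc (Om μ b) M2 g) :
    Bd (W k a * W k b * (128 * (2 + μ) / dl * Γ * (M1 * M2)))
      (fun s => S k hμ (-s) (Qd m c (sg k a (f s)) (sg k b (g s)))) := by
  have k1 : ‖((-(c ^ (2 * m - 1) * (m * (m + 1) / 2) : ℝ) : ℂ) * Complex.I)‖ ≤ Γ := by
    rw [norm_mul, Complex.norm_I, mul_one, norm_neg, Complex.norm_real, Real.norm_eq_abs]
    exact h1
  have k2 : ‖((-(c ^ (2 * m - 1) * (m * (m - 1) / 2) : ℝ) : ℂ) * Complex.I)‖ ≤ Γ := by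
    rw [norm_mul, Complex.norm_I, mul_one, norm_neg, Complex.norm_real, Real.norm_eq_abs]
    exact h2
  have T1 := bd_term (k := k) hμ hdl hgap ha hb (hf.const_mul k1) hg
  have T2 := bd_term (k := k) hμ hdl hgap ha (neg_ne_zero.2 hb) (hf.const_mul k1)
    hg.conj.neg_freq
  have T3 := bd_term (k := k) hμ hdl hgap (neg_ne_zero.2 ha) hb
    (hf.conj.const_mul k1).neg_freq hg
  have T4 := bd_term (k := k) hμ hdl hgap (neg_ne_zero.2 ha) (neg_ne_zero.2 hb)
    (hf.conj.const_mul k2).neg_freq hg.conj.neg_freq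
  have H := (T1.add T2).add (T3.add T4)
  simp only [W_neg] at H
  have H2 := H.mono (D := W k a * W k b * (128 * (2 + μ) / dl * Γ * (M1 * M2)))
    (le_of_eq (by ring))
  refine cast (congrArg _ ?_) H2
  funext s
  rw [Qf_sg m c ha hb, map_add, map_add, map_add]

lemma Pz_S_zero {μ : ℝ} (hμ : 0 ≤ μ) (s : ℝ) (z : ℂ) :
    Pz (S k hμ s (sg k (0 : Lat d) z)) = 0 := by
  rw [S_sg, neg_zero, map_add, Pz_sg_zero, Pz_sg_zero, add_zero]

/-- The integrand on single modes. -/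
lemma bd_Psi {μ dl : ℝ} (hμ : 0 ≤ μ) (hdl : 0 < dl) (hgap : NR3 d μ dl) (m : ℕ) (c : ℝ)
    {Γ : ℝ} (h1 : |c ^ (2 * m - 1) * (m * (m + 1) / 2)| ≤ Γ)
    (h2 : |c ^ (2 * m - 1) * (m * (m - 1) / 2)| ≤ Γ) (a b : Lat d) (z w : ℂ) :
    Bd (512 * (2 + μ) ^ 3 / dl * Γ * (W k a * ‖z‖) * (W k b * ‖w‖))
      (fun s => Psi (S k hμ) (Qd m c) s (sg k a z) (sg k b w)) := by
  have hΓ : 0 ≤ Γ := (abs_nonneg _).trans h1
  have hWa := (W_pos (k := k) a).le
  have hWb := (W_pos (k := k) b).le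
  by_cases ha : a = 0
  · have : (fun s => Psi (S k hμ) (Qd m c) s (sg k a z) (sg k b w)) = fun _ => 0 := by
      funext s
      unfold Psi
      rw [Qd_apply, Qf, ha, Pz_S_zero]
      simp
    rw [this]
    exact Bd.zero (by positivity)
  by_cases hb : b = 0
  · have : (fun s => Psi (S k hμ) (Qd m c) s (sg k a z) (sg k b w)) = fun _ => 0 := by
      funext s
      unfold Psi
      rw [Qd_apply, Qf, hb, Pz_S_zero]
      simp
    rw [this]
    exact Bd.zero (by positivity)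
  have fa := (osc_al hμ ha).mul_const z
  have fb := ((osc_be hμ ha).mul_const (conj z)).neg_freq
  have ga := (osc_al hμ hb).mul_const w
  have gb := ((osc_be hμ hb).mul_const (conj w)).neg_freq
  have T1 := bd_Q (k := k) hμ hdl hgap m c h1 h2 ha hb fa ga
  have T2 := bd_Q (k := k) hμ hdl hgap m c h1 h2 ha (neg_ne_zero.2 hb) fa gb
  have T3 := bd_Q (k := k) hμ hdl hgap m c h1 h2 (neg_ne_zero.2 ha) hb fb ga
  have T4 := bd_Q (k := k) hμ hdl hgap m c h1 h2 (neg_ne_zero.2 ha) (neg_ne_zero.2 hb) fb gb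
  have H := (T1.add T2).add (T3.add T4)
  simp only [W_neg, RCLike.norm_conj] at H
  have H2 := H.mono (D := 512 * (2 + μ) ^ 3 / dl * Γ * (W k a * ‖z‖) * (W k b * ‖w‖))
    (le_of_eq (by ring))
  refine cast (congrArg _ ?_) H2
  funext s
  unfold Psi
  rw [S_sg, S_sg, map_add (Qd m c), add_apply, map_add, map_add, map_add, map_add, map_add]

/-- An element is the sum of its modes. -/
lemma hasSum_sg (x : WA d k) : HasSum (fun a => sg k a (coef x a)) x := by
  have hs : Summable (fun a => sg k a (coef x a)) := by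
    refine Summable.of_norm ?_
    simp_rw [norm_sg]
    exact x.summable
  have he : ∑' a, sg k a (coef x a) = x := by
    ext n
    have h1 : coef (∑' a, sg k a (coef x a)) n = ∑' a, coef (sg k a (coef x a)) n :=
      (coefL n : WA d k →L[ℂ] ℂ).map_tsum hs
    rw [h1]
    simp_rw [coef_sg]
    rw [tsum_eq_single n (fun m hm => if_neg (Ne.symm hm)), if_pos rfl]
  have := hs.hasSum
  rwa [he] at this

lemma lin_bound (L : WA d k →L[ℝ] WA d k) {K : ℝ}
    (h : ∀ (b : Lat d) (w : ℂ), ‖L (sg k b w)‖ ≤ K * (W k b * ‖w‖)) (y : WA d k) :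
    ‖L y‖ ≤ K * ‖y‖ := by
  have h1 : HasSum (fun b => L (sg k b (coef y b))) (L y) := L.hasSum (hasSum_sg y)
  have h2 : Summable fun b => K * (W k b * ‖coef y b‖) := y.summable.mul_left K
  rw [← h1.tsum_eq, norm_eq y, ← tsum_mul_left]
  exact tsum_of_norm_bounded h2.hasSum (fun b => h b _)

lemma bilin_bound (B : WA d k →L[ℝ] WA d k →L[ℝ] WA d k) {K : ℝ}
    (h : ∀ (a b : Lat d) (z w : ℂ),
      ‖B (sg k a z) (sg k b w)‖ ≤ K * (W k a * ‖z‖) * (W k b * ‖w‖)) (x y : WA d k) :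
    ‖B x y‖ ≤ K * ‖x‖ * ‖y‖ := by
  have h1 : ∀ (a : Lat d) (z : ℂ), ‖B (sg k a z) y‖ ≤ K * (W k a * ‖z‖) * ‖y‖ := fun a z =>
    lin_bound (B (sg k a z)) (fun b w => h a b z w) y
  have h2 := lin_bound (B.flip y) (K := K * ‖y‖) (fun a z => by
    rw [ContinuousLinearMap.flip_apply]
    refine (h1 a z).trans (le_of_eq (by ring))) x
  rw [ContinuousLinearMap.flip_apply] at h2
  refine h2.trans (le_of_eq (by ring))

/-- **The primitive of the integrand of the normal form is a bounded bilinear map, uniformly in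
time.** -/
theorem prim_bound (m : ℕ) {c mu dl : ℝ} (hmu : 0 ≤ mu) (hdl : 0 < dl)
    (hgap : ∀ a b : Lat d, a ≠ 0 → b ≠ 0 → a + b ≠ 0 → dl ≤ |Om mu (a + b) - Om mu a - Om mu b|) :
    ∃ K, 0 ≤ K ∧ ∀ (t : ℝ) (x y : WA d k),
      ‖∫ s in (0 : ℝ)..t, Psi (S k hmu) (Qd m c) s x y‖ ≤ K * ‖x‖ * ‖y‖ := by
  set Γ : ℝ := |c ^ (2 * m - 1) * (m * (m + 1) / 2)| + |c ^ (2 * m - 1) * (m * (m - 1) / 2)| with hΓ
  have hΓ0 : 0 ≤ Γ := by positivity
  have g1 : |c ^ (2 * m - 1) * ((m : ℝ) * (m + 1) / 2)| ≤ Γ := by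
    rw [hΓ]
    exact le_add_of_nonneg_right (abs_nonneg _)
  have g2 : |c ^ (2 * m - 1) * ((m : ℝ) * (m - 1) / 2)| ≤ Γ := by
    rw [hΓ]
    exact le_add_of_nonneg_left (abs_nonneg _)
  refine ⟨512 * (2 + mu) ^ 3 / dl * Γ, by positivity, fun t => ?_⟩
  have hM : (0 : ℝ) < 2 * (2 + mu) := by positivity
  have hc := fun x y : WA d k => continuous_Psi hM (norm_S_le (k := k) (d := d) hmu)
    (continuous_S hmu) (Qd m c) x y
  have hbd : ∀ (s : ℝ) (x y : WA d k), ‖Psi (S k hmu) (Qd m c) s x y‖ ≤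
      (2 * (2 + mu)) * (‖(Qd m c : WA d k →L[ℝ] WA d k →L[ℝ] WA d k)‖ *
        ((2 * (2 + mu)) * ‖x‖) * ((2 * (2 + mu)) * ‖y‖)) := by
    intro s x y
    unfold Psi
    refine ((S k hmu (-s)).le_of_opNorm_le (norm_S_le hmu _) _).trans ?_
    refine mul_le_mul_of_nonneg_left ?_ hM.le
    refine ((Qd m c).le_opNorm₂ _ _).trans ?_
    gcongr
    · exact (S k hmu s).le_of_opNorm_le (norm_S_le hmu _) _
    · exact (S k hmu s).le_of_opNorm_le (norm_S_le hmu _) _
  set B : WA d k →L[ℝ] WA d k →L[ℝ] WA d k := LinearMap.mkContinuous₂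
    (LinearMap.mk₂ ℝ (fun x y => ∫ s in (0 : ℝ)..t, Psi (S k hmu) (Qd m c) s x y)
      (fun x x' y => by
        rw [← intervalIntegral.integral_add ((hc x y).intervalIntegrable _ _)
          ((hc x' y).intervalIntegrable _ _)]
        simp only [Psi, map_add, add_apply])
      (fun c x y => by
        rw [← intervalIntegral.integral_smul]
        simp only [Psi, map_smul, smul_apply])
      (fun x y y' => by
        rw [← intervalIntegral.integral_add ((hc x y).intervalIntegrable _ _)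
          ((hc x y').intervalIntegrable _ _)]
        simp only [Psi, map_add])
      (fun c x y => by
        rw [← intervalIntegral.integral_smul]
        simp only [Psi, map_smul]))
    ((2 * (2 + mu)) * (‖(Qd m c : WA d k →L[ℝ] WA d k →L[ℝ] WA d k)‖ *
        (2 * (2 + mu)) * (2 * (2 + mu))) * |t|)
    (fun x y => by
      have h := intervalIntegral.norm_integral_le_of_norm_le_const (a := (0 : ℝ)) (b := t)
        (fun s _ => hbd s x y)
      rw [sub_zero] at h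
      refine h.trans (le_of_eq (by ring))) with hB
  have hBa : ∀ x y, B x y = ∫ s in (0 : ℝ)..t, Psi (S k hmu) (Qd m c) s x y := fun x y => rfl
  intro x y
  rw [← hBa]
  exact bilin_bound B (fun a b z w => by
    rw [hBa]
    exact (bd_Psi hmu hdl hgap m c g1 g2 a b z w).2 t) x y

theorem primBound (m : ℕ) {c mu dl : ℝ} (hmu : 0 ≤ mu) (hdl : 0 < dl)
    (hgap : ∀ a b : Lat d, a ≠ 0 → b ≠ 0 → a + b ≠ 0 → dl ≤ |Om mu (a + b) - Om mu a - Om mu b|) :
    PrimBound d k m c hmu := prim_bound m hmu hdl hgap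

end Vale.Agent.P139.H836
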