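import Vale.Agent.P139.Bdl.B1

/-! The closed system for the nonzero modes: definitions. -/

open Set Metric Filter Topology MeasureTheory
open scoped NNReal ComplexConjugate

namespace Vale.Agent.P139.H836

open Vale.Agent.P139.A Vale.Agent.P139.A.WA

/-- The integrand of the normal form. -/
noncomputable def Psi {X : Type*} [NormedAddCommGroup X] [NormedSpace ℝ X] (S : ℝ → X →L[ℝ] X)
    (Q : X →L[ℝ] X →L[ℝ] X) (s : ℝ) (x y : X) : X :=
  S (-s) (Q (S s x) (S s y))

variable {d k : ℕ}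

/-- Removes the zero mode. -/
noncomputable def Pz : WA d k →L[ℝ] WA d k :=
  pairOp (fun n => if n = 0 then 0 else 1) (fun _ => 0) 1
    (fun n => by split_ifs <;> simp) (fun n => by simp)

lemma coef_Pz (a : WA d k) (n : Lat d) : coef (Pz a) n = if n = 0 then 0 else coef a n := by
  unfold Pz
  rw [coef_pairOp]
  split_ifs <;> simp

lemma norm_Pz_le (a : WA d k) : ‖Pz a‖ ≤ ‖a‖ := by
  rw [norm_eq, norm_eq]
  refine (Pz a).summable.tsum_le_tsum (fun n => ?_) a.summable
  rw [coef_Pz]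
  have := (W_pos (k := k) n).le
  split_ifs
  · simp only [norm_zero, mul_zero]
    positivity
  · exact le_rfl

lemma Pz_Pz (a : WA d k) : Pz (Pz a) = Pz a := by
  ext n
  simp only [coef_Pz]
  split_ifs <;> rfl

lemma norm_conjL (a : WA d k) : ‖conjL a‖ = ‖a‖ := by
  rw [norm_eq, ← tsum_neg' a]
  refine tsum_congr fun n => ?_
  rw [coef_conjL, RCLike.norm_conj]

/-- The mass `∑ |a_n|²`. -/
noncomputable def mass (a : WA d k) : ℝ := (coef (a * conjL a) 0).re

/-- The zero mode as a function of the other modes, by conservation of mass. -/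
noncomputable def bz (c e : ℝ) (w : WA d k) : ℝ := Real.sqrt (c ^ 2 + e - mass (Pz w))

/-- The nonlinearity of the closed system for the nonzero modes. -/
noncomputable def fe (m : ℕ) (c e : ℝ) (w : WA d k) : WA d k :=
  Pz (Nl m (cst (bz c e w) + Pz w)) - Lin (m * c ^ (2 * m)) w

/-- The quadratic part, as a function of two arguments without zero mode. -/
noncomputable def Qf (m : ℕ) (c : ℝ) (x y : WA d k) : WA d k :=
  -((c ^ (2 * m - 1) : ℝ) • (Complex.I • Pz
    (((m * (m + 1) / 2 : ℝ)) • (Pz x * Pz y) +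
      ((m * (m + 1) / 2 : ℝ)) • (Pz x * conjL (Pz y) + conjL (Pz x) * Pz y) +
      ((m * (m - 1) / 2 : ℝ)) • (conjL (Pz x) * conjL (Pz y)))))

lemma norm_Qf_le (m : ℕ) (c : ℝ) (x y : WA d k) :
    ‖Qf m c x y‖ ≤ |c ^ (2 * m - 1)| * (4 * ((m : ℝ) * (m + 1))) * ‖x‖ * ‖y‖ := by
  have hx := norm_Pz_le x
  have hy := norm_Pz_le y
  have h1 : ‖Pz x * Pz y‖ ≤ ‖x‖ * ‖y‖ := (norm_mul_le _ _).trans (by gcongr)
  have h2 : ‖Pz x * conjL (Pz y)‖ ≤ ‖x‖ * ‖y‖ := by
    refine (norm_mul_le _ _).trans ?_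
    rw [norm_conjL]
    gcongr
  have h3 : ‖conjL (Pz x) * Pz y‖ ≤ ‖x‖ * ‖y‖ := by
    refine (norm_mul_le _ _).trans ?_
    rw [norm_conjL]
    gcongr
  have h4 : ‖conjL (Pz x) * conjL (Pz y)‖ ≤ ‖x‖ * ‖y‖ := by
    refine (norm_mul_le _ _).trans ?_
    rw [norm_conjL, norm_conjL]
    gcongr
  have hm0 : (0 : ℝ) ≤ m := Nat.cast_nonneg m
  have ha : |(m : ℝ) * (m + 1) / 2| ≤ (m : ℝ) * (m + 1) := by
    rw [abs_of_nonneg (by positivity)]
    nlinarith [mul_nonneg hm0 hm0]
  have hb : |(m : ℝ) * (m - 1) / 2| ≤ (m : ℝ) * (m + 1) := by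
    rw [abs_le]
    constructor <;> nlinarith [mul_nonneg hm0 hm0]
  unfold Qf
  rw [norm_neg, norm_smul, norm_smul, Complex.norm_I, one_mul, Real.norm_eq_abs]
  have h5 : ‖((m * (m + 1) / 2 : ℝ)) • (Pz x * Pz y) +
      ((m * (m + 1) / 2 : ℝ)) • (Pz x * conjL (Pz y) + conjL (Pz x) * Pz y) +
      ((m * (m - 1) / 2 : ℝ)) • (conjL (Pz x) * conjL (Pz y))‖ ≤
      (4 * ((m : ℝ) * (m + 1))) * (‖x‖ * ‖y‖) := by
    refine (norm_add₃_le).trans ?_
    rw [norm_smul, norm_smul, norm_smul, Real.norm_eq_abs, Real.norm_eq_abs]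
    calc _ ≤ ((m : ℝ) * (m + 1)) * (‖x‖ * ‖y‖) +
          ((m : ℝ) * (m + 1)) * (‖x‖ * ‖y‖ + ‖x‖ * ‖y‖) +
          ((m : ℝ) * (m + 1)) * (‖x‖ * ‖y‖) := by
          gcongr
          refine (norm_add_le _ _).trans ?_
          gcongr
      _ = _ := by ring
  calc _ ≤ |c ^ (2 * m - 1)| * ((4 * ((m : ℝ) * (m + 1))) * (‖x‖ * ‖y‖)) := by
        gcongr
        exact (norm_Pz_le _).trans h5
    _ = _ := by ring

/-- The quadratic part as a bounded bilinear map. -/
noncomputable def Qd (m : ℕ) (c : ℝ) : WA d k →L[ℝ] WA d k →L[ℝ] WA d k :=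
  LinearMap.mkContinuous₂
    (LinearMap.mk₂ ℝ (Qf m c)
      (fun x x' y => by
        simp only [Qf, map_add, add_mul, mul_add, smul_add]
        abel)
      (fun r x y => by
        simp only [Qf, map_smul, smul_mul_assoc, mul_smul_comm, smul_add, map_add, smul_neg]
        simp only [real_smul, smul_smul, mul_comm, mul_left_comm, mul_assoc])
      (fun x y y' => by
        simp only [Qf, map_add, add_mul, mul_add, smul_add]
        abel)
      (fun r x y => by
        simp only [Qf, map_smul, smul_mul_assoc, mul_smul_comm, smul_add, map_add, smul_neg]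
        simp only [real_smul, smul_smul, mul_comm, mul_left_comm, mul_assoc]))
    (|c ^ (2 * m - 1)| * (4 * ((m : ℝ) * (m + 1)))) (fun x y => norm_Qf_le m c x y)

lemma Qd_apply (m : ℕ) (c : ℝ) (x y : WA d k) : Qd m c x y = Qf m c x y := rfl

end Vale.Agent.P139.H836
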